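import Vale.Agent.P024.H379.E

/-! P024, block M3 (E), multiquadratic version. -/

namespace Vale.Agent.P024.H379

open NumberField Finset IsDedekindDomain Vale.Agent.P024.M3

section

variable {F : Type*} [Field F] [NumberField F]

omit [NumberField F] in
theorem cmul (a b : 𝓞 F) : ((a * b : 𝓞 F) : F) = (a : F) * (b : F) := map_mul (algebraMap (𝓞 F) F) a b

omit [NumberField F] in
theorem cpow (a : 𝓞 F) (n : ℕ) : ((a ^ n : 𝓞 F) : F) = (a : F) ^ n :=
  map_pow (algebraMap (𝓞 F) F) a n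

omit [NumberField F] in
theorem cone : ((1 : 𝓞 F) : F) = 1 := map_one (algebraMap (𝓞 F) F)

/-- the square of a rational unit of `𝓞 F` is one -/
theorem sq_eq_one_of_rat (u : (𝓞 F)ˣ) (q : ℚ) (h : ((u : 𝓞 F) : F) = algebraMap ℚ F q) :
    u ^ 2 = 1 := by
  have h1 : IsUnit (Algebra.norm ℤ (u : 𝓞 F)) := u.isUnit.map _
  have h2 : ((Algebra.norm ℤ (u : 𝓞 F) : ℤ) : ℚ) = Algebra.norm ℚ ((u : 𝓞 F) : F) :=
    Algebra.coe_norm_int _
  rw [h, Algebra.norm_algebraMap] at h2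
  have h3 : (q ^ 2) ^ Module.finrank ℚ F = 1 := by
    rw [← pow_mul, mul_comm, pow_mul, ← h2]
    rcases Int.isUnit_iff.mp h1 with h | h <;> rw [h] <;> norm_num
  have h4 : q ^ 2 = 1 :=
    (pow_eq_one_iff_of_nonneg (sq_nonneg q) (Module.finrank_pos (R := ℚ) (M := F)).ne').mp h3
  apply Units.ext
  apply RingOfIntegers.ext
  rw [Units.val_pow_eq_pow_val, cpow, Units.val_one, cone, h, ← map_pow, h4, map_one]

variable [IsTotallyReal F] [IsGalois ℚ F]

/-- the `χ`-unit -/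
theorem exists_chi_unit (χ : (F ≃ₐ[ℚ] F) →* ℤˣ) (hχ : χ ≠ 1)
    (hG : ∀ g : F ≃ₐ[ℚ] F, g * g = 1) :
    ∃ e : (𝓞 F)ˣ, (∀ n : ℕ, 0 < n → e ^ n ≠ 1) ∧ ∀ s, act s e = e ^ ((χ s : ℤˣ) : ℤ) := by
  classical
  let K : IntermediateField ℚ F := IntermediateField.fixedField χ.ker
  have hK2 : Module.finrank ℚ K = 2 := by
    have h1 : Module.finrank K F = Nat.card χ.ker := by
      rw [IntermediateField.finrank_fixedField_eq_card]
    have h2 : Module.finrank ℚ K * Module.finrank K F = Module.finrank ℚ F :=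
      Module.finrank_mul_finrank ℚ K F
    have h3 : Nat.card χ.ker * Nat.card χ.range = Nat.card (F ≃ₐ[ℚ] F) := by
      have h4 := χ.ker.card_mul_index
      rw [Subgroup.index_ker] at h4
      exact h4
    have h5 : χ.range = ⊤ := by
      obtain ⟨s, hs⟩ : ∃ s, χ s ≠ 1 := by
        by_contra hcon
        push Not at hcon
        exact hχ (MonoidHom.ext hcon)
      rw [eq_top_iff]
      intro u _
      rcases Int.units_eq_one_or u with rfl | rfl
      · exact one_mem _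
      · exact ⟨s, (Int.units_eq_one_or (χ s)).resolve_left hs⟩
    have h6 : Nat.card χ.range = 2 := by
      rw [h5, Subgroup.card_top, Nat.card_eq_fintype_card]; decide
    rw [h6, IsGalois.card_aut_eq_finrank, ← h2, h1, mul_comm] at h3
    have h7 : 0 < Nat.card χ.ker := Nat.card_pos
    exact (Nat.eq_of_mul_eq_mul_right h7 h3).symm
  have hKr : IsTotallyReal K := IsTotallyReal.of_algebra (F := K) (K := F)
  have hr : 0 < Units.rank K := by
    have h3 : Fintype.card (InfinitePlace K) = 2 := by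
      rw [InfinitePlace.card_eq_nrRealPlaces_add_nrComplexPlaces,
        IsTotallyReal.nrComplexPlaces_eq_zero, add_zero, ← IsTotallyReal.finrank, hK2]
    rw [Units.rank, h3]
    norm_num
  obtain ⟨ε0, hε0⟩ := exists_unit_inf K hr
  let ε : (𝓞 F)ˣ := Units.map (RingOfIntegers.mapRingHom (algebraMap K F)).toMonoidHom ε0
  have hεv : ((ε : 𝓞 F) : F) = (((ε0 : 𝓞 K) : K) : F) := rfl
  have hε : ∀ n : ℕ, 0 < n → ε ^ n ≠ 1 := by
    intro n hn h
    apply hε0 n hn
    have h1 : (((ε ^ n : (𝓞 F)ˣ) : 𝓞 F) : F) = (((1 : (𝓞 F)ˣ) : 𝓞 F) : F) := by rw [h]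
    rw [Units.val_pow_eq_pow_val, cpow, Units.val_one, cone, hεv] at h1
    apply Units.ext
    apply RingOfIntegers.ext
    rw [Units.val_pow_eq_pow_val, cpow, Units.val_one, cone]
    apply Subtype.ext
    rw [SubmonoidClass.coe_pow]
    exact h1
  have hfix : ∀ s, χ s = 1 → s ((ε : 𝓞 F) : F) = ((ε : 𝓞 F) : F) := by
    intro s hs
    have h1 := ((ε0 : 𝓞 K) : K).2
    exact (IntermediateField.mem_fixedField_iff _ _).mp h1 s hs
  have hcomm : ∀ a b : F ≃ₐ[ℚ] F, a * b = b * a := by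
    intro a b
    have h := hG (a * b)
    have ha := hG a
    have hb := hG b
    calc a * b = a * (a * b * (a * b)) * b := by rw [h, mul_one]
      _ = (a * a) * (b * a) * (b * b) := by group
      _ = b * a := by rw [ha, hb, one_mul, mul_one]
  refine ⟨ε ^ 2, ?_, ?_⟩
  · intro n hn h
    rw [← pow_mul] at h
    exact hε _ (by omega) h
  · intro s
    rcases Int.units_eq_one_or (χ s) with hs | hs
    · rw [hs]
      simp only [Units.val_one, zpow_one]
      have : act s ε = ε := by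
        apply Units.ext
        apply RingOfIntegers.ext
        rw [act_val]
        exact hfix s hs
      rw [map_pow, this]
    · rw [hs]
      have h1 : ((ε * act s ε) ^ 2 : (𝓞 F)ˣ) = 1 := by
        have h2 : ((((ε * act s ε : (𝓞 F)ˣ) : 𝓞 F)) : F) ∈ (⊥ : IntermediateField ℚ F) := by
          rw [IsGalois.mem_bot_iff_fixed]
          intro t
          have h3 : (((ε * act s ε : (𝓞 F)ˣ) : 𝓞 F) : F)
              = ((ε : 𝓞 F) : F) * s ((ε : 𝓞 F) : F) := by
            rw [Units.val_mul, cmul, act_val]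
          rw [h3, map_mul]
          rcases Int.units_eq_one_or (χ t) with ht | ht
          · rw [hfix t ht]
            congr 1
            have : t (s ((ε : 𝓞 F) : F)) = s (t ((ε : 𝓞 F) : F)) := by
              have := congrArg (fun g : F ≃ₐ[ℚ] F => g ((ε : 𝓞 F) : F)) (hcomm t s)
              exact this
            rw [this, hfix t ht]
          · have h4 : χ (s * t) = 1 := by rw [map_mul, hs, ht]; rfl
            have h5 := hfix (s * t) h4
            have h6 : s (t ((ε : 𝓞 F) : F)) = ((ε : 𝓞 F) : F) := h5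
            have h7 : t (s ((ε : 𝓞 F) : F)) = ((ε : 𝓞 F) : F) := by
              have := congrArg (fun g : F ≃ₐ[ℚ] F => g ((ε : 𝓞 F) : F)) (hcomm t s)
              exact this.trans h6
            have h8 : t ((ε : 𝓞 F) : F) = s ((ε : 𝓞 F) : F) := by
              have h9 := congrArg s h6
              have h10 : s (s (t ((ε : 𝓞 F) : F))) = t ((ε : 𝓞 F) : F) := by
                have := congrArg (fun g : F ≃ₐ[ℚ] F => g (t ((ε : 𝓞 F) : F))) (hG s)
                exact this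
              rw [h10] at h9
              exact h9
            rw [h7, h8, mul_comm]
        obtain ⟨q, hq⟩ := IntermediateField.mem_bot.mp h2
        exact sq_eq_one_of_rat _ q hq.symm
      have h2 : ((-1 : ℤˣ) : ℤ) = -1 := rfl
      rw [h2, zpow_neg, zpow_one, map_pow, eq_inv_iff_mul_eq_one, ← mul_pow, mul_comm]
      exact h1

omit [IsTotallyReal F] [IsGalois ℚ F] in
theorem prod_zpow_sum {A ι : Type*} [CommGroup A] (a : A) (S : Finset ι) (f : ι → ℤ) :
    ∏ i ∈ S, a ^ f i = a ^ ∑ i ∈ S, f i := by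
  classical
  induction S using Finset.induction_on with
  | empty => simp
  | insert i S hi ih => rw [Finset.prod_insert hi, Finset.sum_insert hi, ih, zpow_add]

omit [IsTotallyReal F] [IsGalois ℚ F] in
theorem Tpsi_unit (ψ χ : (F ≃ₐ[ℚ] F) →* ℤˣ) (e : (𝓞 F)ˣ)
    (he : ∀ s, act s e = e ^ ((χ s : ℤˣ) : ℤ)) :
    Tpsi ψ e = e ^ ∑ s : F ≃ₐ[ℚ] F, ((χ s : ℤˣ) : ℤ) * ((ψ s : ℤˣ) : ℤ) := by
  rw [Tpsi_apply, ← prod_zpow_sum]
  refine Finset.prod_congr rfl (fun s _ => ?_)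
  rw [he s, ← zpow_mul]

omit [IsTotallyReal F] [IsGalois ℚ F] in
theorem sum_chars (ψ χ : (F ≃ₐ[ℚ] F) →* ℤˣ) (h : χ ≠ ψ) :
    ∑ s : F ≃ₐ[ℚ] F, ((χ s : ℤˣ) : ℤ) * ((ψ s : ℤˣ) : ℤ) = 0 := by
  have h1 := sum_hom_units_eq_zero ((Units.coeHom ℤ).comp (χ * ψ)) (by
    intro h2
    apply h
    ext s
    have h3 := DFunLike.congr_fun h2 s
    have h4 : ((χ s * ψ s : ℤˣ) : ℤ) = 1 := h3
    have h5 : χ s * ψ s = 1 := Units.ext h4
    have h6 : ψ s * ψ s = 1 := Int.units_mul_self _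
    have h7 : χ s = ψ s := mul_right_cancel (h5.trans h6.symm)
    rw [h7])
  exact h1

omit [IsTotallyReal F] [IsGalois ℚ F] in
theorem sum_chars_self (χ : (F ≃ₐ[ℚ] F) →* ℤˣ) :
    ∑ s : F ≃ₐ[ℚ] F, ((χ s : ℤˣ) : ℤ) * ((χ s : ℤˣ) : ℤ) = Fintype.card (F ≃ₐ[ℚ] F) := by
  have : ∀ s : F ≃ₐ[ℚ] F, ((χ s : ℤˣ) : ℤ) * ((χ s : ℤˣ) : ℤ) = 1 := by
    intro s
    rw [← Units.val_mul, Int.units_mul_self, Units.val_one]
  rw [Finset.sum_congr rfl (fun s _ => this s)]
  simp

/-- **multiquadratic closure index** modulo `p^k` -/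
theorem clo2 (F : Type*) [Field F] [NumberField F] [IsTotallyReal F] [IsGalois ℚ F]
    (hG : ∀ g : F ≃ₐ[ℚ] F, g * g = 1) (p : ℕ) (hp : p.Prime) (hp2 : p ≠ 2) (x : 𝓞 F)
    (hx1 : 1 < (Ideal.span {x}).absNorm) (hxp : Nat.Coprime (Ideal.span {x}).absNorm p) :
    Fin379 F p x := by
  classical
  have hcard := card_chars (F ≃ₐ[ℚ] F) hG
  rw [IsGalois.card_aut_eq_finrank] at hcard
  have hn0 : 0 < Module.finrank ℚ F := Module.finrank_pos
  have hfinX : Finite ((F ≃ₐ[ℚ] F) →* ℤˣ) := Nat.finite_of_card_ne_zero (by omega)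
  let _i : Fintype ((F ≃ₐ[ℚ] F) →* ℤˣ) := Fintype.ofFinite _
  choose e he1 he2 using fun χ : {χ : (F ≃ₐ[ℚ] F) →* ℤˣ // χ ≠ 1} =>
    exists_chi_unit χ.1 χ.2 hG
  have hI : Fintype.card {χ : (F ≃ₐ[ℚ] F) →* ℤˣ // χ ≠ 1} + 1 = Module.finrank ℚ F := by
    have h1 := Fintype.card_subtype_compl (fun χ : (F ≃ₐ[ℚ] F) →* ℤˣ => χ = 1)
    rw [Fintype.card_subtype_eq] at h1
    rw [Nat.card_eq_fintype_card] at hcard
    have h2 : Fintype.card {χ : (F ≃ₐ[ℚ] F) →* ℤˣ // χ ≠ 1}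
        = Fintype.card {χ : (F ≃ₐ[ℚ] F) →* ℤˣ // ¬ χ = 1} := rfl
    omega
  obtain ⟨c, hc⟩ := card_geI p hp hp2 x hx1 hxp e (fun χ => Tpsi χ.1)
    (fun χ k u hu => Tpsi_Ck χ.1 hu)
    (fun ψ χ h => by
      rw [Tpsi_unit ψ.1 χ.1 (e χ) (he2 χ), sum_chars, zpow_zero]
      intro h'
      exact h (Subtype.ext h'.symm))
    (fun χ n hn h => by
      rw [Tpsi_unit χ.1 χ.1 (e χ) (he2 χ), sum_chars_self, zpow_natCast, ← pow_mul] at h
      exact he1 χ _ (Nat.mul_pos Fintype.card_pos hn) h)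
  rw [hI] at hc
  refine ⟨p ^ (Module.finrank ℚ F * c), pow_pos hp.pos _, fun k H hH => ?_⟩
  have hfin : Finite (𝓞 F ⧸ Ideal.span {(p : 𝓞 F) ^ k}) := by
    apply Nat.finite_of_card_ne_zero
    rw [card_quot]
    exact pow_ne_zero _ hp.ne_zero
  refine ⟨Subgroup.index_ne_zero_of_finite, ?_⟩
  have h1 := hc k H (by
    rintro u (hu | ⟨ε, hu⟩)
    · exact hH u x hu (Or.inr rfl)
    · exact hH u _ hu (Or.inl ε.isUnit))
  have h2 := H.card_mul_index
  have h3 : Nat.card (𝓞 F ⧸ Ideal.span {(p : 𝓞 F) ^ k})ˣ ≤ p ^ (Module.finrank ℚ F * k) := by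
    rw [← card_quot (F := F) p k]
    exact Nat.card_le_card_of_injective _ Units.val_injective
  have h4 : p ^ ((k - c) * Module.finrank ℚ F) * H.index
      ≤ p ^ ((k - c) * Module.finrank ℚ F) * p ^ (Module.finrank ℚ F * c) := by
    calc _ ≤ Nat.card H * H.index := Nat.mul_le_mul_right _ h1
      _ = _ := h2
      _ ≤ p ^ (Module.finrank ℚ F * k) := h3
      _ ≤ _ := by
        rw [← pow_add]
        apply Nat.pow_le_pow_right hp.pos
        have : k ≤ (k - c) + c := by omega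
        calc Module.finrank ℚ F * k ≤ Module.finrank ℚ F * ((k - c) + c) :=
              Nat.mul_le_mul_left _ this
          _ = _ := by ring
  exact Nat.le_of_mul_le_mul_left h4 (pow_pos hp.pos _)

/-- **PropE for multiquadratic totally real fields.** -/
theorem clos_multi (F : Type*) [Field F] [NumberField F] [IsTotallyReal F] [IsGalois ℚ F]
    (hG : ∀ g : F ≃ₐ[ℚ] F, g * g = 1) (p : ℕ) (hp : p.Prime) (hp2 : p ≠ 2)
    (v : HeightOneSpectrum (𝓞 F)) (hpv : (p : 𝓞 F) ∉ v.asIdeal) :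
    ∃ C : ℕ, ∀ k : ℕ, (UF v ⊔ VS F p k).relIndex (RR F p) ≠ 0 ∧
      (UF v ⊔ VS F p k).relIndex (RR F p) ≤ C := by
  obtain ⟨x0, h0, h1, h2, h3⟩ := exists_x0 hp hpv
  exact clos_of hp hpv h0 h1 (clo2 F hG p hp hp2 x0 h2 h3)

end

end Vale.Agent.P024.H379
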