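import Vale.Agent.P024.H379.Clo2
import Vale.Agent.P024.M3.Spec

/-! P024, block M3: `PropE` from the closure index modulo `p^k`. -/

namespace Vale.Agent.P024.H379

open NumberField Finset IsDedekindDomain Vale.Agent.P024.M3

section semi

variable {F : Type*} [Field F] [NumberField F]

theorem val_nat_le (w : HeightOneSpectrum (𝓞 F)) (n : ℕ) : w.valuation F (n : F) ≤ 1 := by
  have h := w.valuation_le_one (K := F) (n : 𝓞 F)
  simpa using h

theorem val_nat_eq_one {w : HeightOneSpectrum (𝓞 F)} {n : ℕ} (h : (n : 𝓞 F) ∉ w.asIdeal) :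
    w.valuation F (n : F) = 1 := by
  have h2 := (w.valuation_eq_one_iff_notMem (K := F) (r := (n : 𝓞 F))).mpr h
  simpa using h2

omit [NumberField F] in
/-- a number prime to `p` is a unit at the primes above `p` -/
theorem nat_notMem {p : ℕ} (hp : p.Prime) {w : HeightOneSpectrum (𝓞 F)}
    (hw : (p : 𝓞 F) ∈ w.asIdeal) {n : ℕ} (hn : ¬ p ∣ n) : (n : 𝓞 F) ∉ w.asIdeal := by
  intro h
  have h1 : IsCoprime (n : ℤ) (p : ℤ) :=
    Nat.isCoprime_iff_coprime.mpr ((Nat.Prime.coprime_iff_not_dvd hp).mpr hn).symm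
  obtain ⟨a, b, hab⟩ := h1
  have h2 := congrArg (fun z : ℤ => (z : 𝓞 F)) hab
  push_cast at h2
  apply w.isPrime.ne_top
  rw [Ideal.eq_top_iff_one, ← h2]
  exact Ideal.add_mem _ (Ideal.mul_mem_left _ _ h) (Ideal.mul_mem_left _ _ hw)

/-- elements integral at `p` have a denominator prime to `p` -/
theorem semi {p : ℕ} (hp : p.Prime) (x : F)
    (hx : ∀ w : HeightOneSpectrum (𝓞 F), (p : 𝓞 F) ∈ w.asIdeal → w.valuation F x ≤ 1) :
    ∃ n : ℕ, ¬ p ∣ n ∧ ∃ a : 𝓞 F, (n : F) * x = (a : F) := by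
  obtain ⟨a, b, hb, rfl⟩ := IsFractionRing.div_surjective (A := 𝓞 F) x
  have hb0 : b ≠ 0 := nonZeroDivisors.ne_zero hb
  have hm : (Ideal.span {b}).absNorm ≠ 0 := by
    rw [Ideal.absNorm_ne_zero_iff]
    have : Finite (𝓞 F ⧸ Ideal.span {b}) :=
      Ideal.finiteQuotientOfFreeOfNeBot _ (by simpa [Ideal.span_singleton_eq_bot] using hb0)
    infer_instance
  obtain ⟨e, n, hn, hmn⟩ := Nat.exists_eq_pow_mul_and_not_dvd hm p hp.ne_one
  refine ⟨n, hn, ?_⟩
  have key : ∀ w : HeightOneSpectrum (𝓞 F),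
      w.valuation F ((n : F) * (algebraMap (𝓞 F) F a / algebraMap (𝓞 F) F b)) ≤ 1 := by
    intro w
    by_cases hw : (p : 𝓞 F) ∈ w.asIdeal
    · rw [map_mul]
      exact mul_le_one' (val_nat_le w n) (hx w hw)
    · have h1 : b ∣ ((Ideal.span {b}).absNorm : 𝓞 F) :=
        Ideal.mem_span_singleton.mp (Ideal.absNorm_mem _)
      obtain ⟨c, hc⟩ := h1
      rw [hmn] at hc
      push_cast at hc
      have hc' := congrArg (algebraMap (𝓞 F) F) hc
      rw [map_mul, map_mul, map_pow, map_natCast, map_natCast] at hc'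
      have h2 : w.valuation F (n : F) ≤ w.valuation F (algebraMap (𝓞 F) F b) := by
        have h3 := congrArg (w.valuation F) hc'
        rw [map_mul, map_mul, map_pow, val_nat_eq_one hw, one_pow, one_mul] at h3
        rw [h3]
        exact mul_le_of_le_one_right' (w.valuation_le_one c)
      have hvb : w.valuation F (algebraMap (𝓞 F) F b) ≠ 0 := by
        rw [Valuation.ne_zero_iff]
        exact (map_ne_zero_iff _ (FaithfulSMul.algebraMap_injective (𝓞 F) F)).mpr hb0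
      rw [map_mul, map_div₀, mul_div_assoc', div_le_one₀ (zero_lt_iff.mpr hvb)]
      calc _ ≤ w.valuation F (algebraMap (𝓞 F) F b) * 1 :=
            mul_le_mul' h2 (w.valuation_le_one a)
        _ = _ := mul_one _
  obtain ⟨r, hr⟩ := HeightOneSpectrum.mem_integers_of_valuation_le_one F _ key
  exact ⟨r, hr.symm⟩

theorem unit_of_val {p : ℕ} (hp : p.Prime) (k : ℕ) {a : 𝓞 F}
    (ha : ∀ w : HeightOneSpectrum (𝓞 F), (p : 𝓞 F) ∈ w.asIdeal → a ∉ w.asIdeal) :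
    IsUnit (Ideal.Quotient.mk (Ideal.span {(p : 𝓞 F) ^ k}) a) := by
  have h1 : Ideal.span {a} ⊔ Ideal.span {(p : 𝓞 F) ^ k} = ⊤ := by
    by_contra h
    obtain ⟨m, hm, hle⟩ := Ideal.exists_le_maximal _ h
    have ham : a ∈ m := hle (Ideal.mem_sup_left (Ideal.mem_span_singleton_self a))
    have hpm : (p : 𝓞 F) ∈ m :=
      hm.isPrime.mem_of_pow_mem k (hle (Ideal.mem_sup_right (Ideal.mem_span_singleton_self _)))
    have hm0 : m ≠ ⊥ := by
      rintro rfl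
      rw [Ideal.mem_bot] at hpm
      exact hp.ne_zero (by exact_mod_cast hpm)
    exact ha ⟨m, hm.isPrime, hm0⟩ hpm ham
  rw [Ideal.eq_top_iff_one, Submodule.mem_sup] at h1
  obtain ⟨y, hy, z, hz, hyz⟩ := h1
  obtain ⟨c, rfl⟩ := Ideal.mem_span_singleton'.mp hy
  apply IsUnit.of_mul_eq_one (Ideal.Quotient.mk _ c)
  rw [← map_mul, ← map_one (Ideal.Quotient.mk _), Ideal.Quotient.eq]
  have : a * c - 1 = -z := by rw [← hyz]; ring
  rw [this]
  exact neg_mem hz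

end semi

/-- the closure of the `v`-units is open, uniformly in `k` -/
def Clos (F : Type*) [Field F] [NumberField F] (p : ℕ) (v : HeightOneSpectrum (𝓞 F)) : Prop :=
  ∃ C : ℕ, ∀ k : ℕ, (UF v ⊔ VS F p k).relIndex (RR F p) ≠ 0 ∧
    (UF v ⊔ VS F p k).relIndex (RR F p) ≤ C

/-- the hypothesis coming from `clo` -/
def Fin379 (F : Type*) [Field F] [NumberField F] (p : ℕ) (x : 𝓞 F) : Prop :=
  ∃ C : ℕ, 0 < C ∧ ∀ k : ℕ, ∀ H : Subgroup (𝓞 F ⧸ Ideal.span {(p : 𝓞 F) ^ k})ˣ,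
      (∀ (u : (𝓞 F ⧸ Ideal.span {(p : 𝓞 F) ^ k})ˣ) (y : 𝓞 F),
        (u : 𝓞 F ⧸ Ideal.span {(p : 𝓞 F) ^ k}) = Ideal.Quotient.mk _ y → (IsUnit y ∨ y = x) →
          u ∈ H) →
      H.index ≠ 0 ∧ H.index ≤ C

section main

variable {F : Type*} [Field F] [NumberField F]

theorem clos_of {p : ℕ} (hp : p.Prime) {v : HeightOneSpectrum (𝓞 F)}
    (hpv : (p : 𝓞 F) ∉ v.asIdeal) {x0 : 𝓞 F} (hx0 : x0 ≠ 0)
    (hxv : ∀ w : HeightOneSpectrum (𝓞 F), w ≠ v → x0 ∉ w.asIdeal) (h : Fin379 F p x0) :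
    Clos F p v := by
  classical
  obtain ⟨C, hC, hH⟩ := h
  refine ⟨C, fun k => ?_⟩
  have hfin : Finite (𝓞 F ⧸ Ideal.span {(p : 𝓞 F) ^ k}) := by
    apply Nat.finite_of_card_ne_zero
    rw [card_quot]
    exact pow_ne_zero _ hp.ne_zero
  have hx0p : ∀ w : HeightOneSpectrum (𝓞 F), (p : 𝓞 F) ∈ w.asIdeal → x0 ∉ w.asIdeal :=
    fun w hw => hxv w (fun h => hpv (h ▸ hw))
  obtain ⟨ux, hux⟩ := unit_of_val hp k hx0p
  let ρ : (𝓞 F)ˣ →* (𝓞 F ⧸ Ideal.span {(p : 𝓞 F) ^ k})ˣ :=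
    Units.map (Ideal.Quotient.mk _).toMonoidHom
  have hρ : ∀ ε : (𝓞 F)ˣ, ((ρ ε : (𝓞 F ⧸ Ideal.span {(p : 𝓞 F) ^ k})ˣ) :
      𝓞 F ⧸ Ideal.span {(p : 𝓞 F) ^ k}) = Ideal.Quotient.mk _ (ε : 𝓞 F) := fun _ => rfl
  let H : Subgroup (𝓞 F ⧸ Ideal.span {(p : 𝓞 F) ^ k})ˣ := ρ.range ⊔ Subgroup.zpowers ux
  obtain ⟨hH0, hHC⟩ := hH k H (by
    rintro u y hu (⟨ε, rfl⟩ | rfl)
    · have : u = ρ ε := Units.ext hu
      rw [this]
      exact Subgroup.mem_sup_left ⟨ε, rfl⟩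
    · have : u = ux := Units.ext (hu.trans hux.symm)
      rw [this]
      exact Subgroup.mem_sup_right (Subgroup.mem_zpowers _))
  -- representatives
  have hrep : ∀ x : RR F p, ∃ (n : ℕ) (a : 𝓞 F) (ua un : (𝓞 F ⧸ Ideal.span {(p : 𝓞 F) ^ k})ˣ),
      ¬ p ∣ n ∧ (n : F) * ((x : Fˣ) : F) = (a : F) ∧
      (∀ w : HeightOneSpectrum (𝓞 F), (p : 𝓞 F) ∈ w.asIdeal → a ∉ w.asIdeal) ∧
      (ua : 𝓞 F ⧸ Ideal.span {(p : 𝓞 F) ^ k}) = Ideal.Quotient.mk _ a ∧
      (un : 𝓞 F ⧸ Ideal.span {(p : 𝓞 F) ^ k}) = Ideal.Quotient.mk _ (n : 𝓞 F) := by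
    intro x
    obtain ⟨n, hn, a, ha⟩ := semi hp ((x : Fˣ) : F) (fun w hw => (x.2 w hw).le)
    have haw : ∀ w : HeightOneSpectrum (𝓞 F), (p : 𝓞 F) ∈ w.asIdeal → a ∉ w.asIdeal := by
      intro w hw
      rw [← w.valuation_eq_one_iff_notMem (K := F)]
      change w.valuation F (a : F) = 1
      rw [← ha, map_mul, val_nat_eq_one (nat_notMem hp hw hn), one_mul]
      exact x.2 w hw
    obtain ⟨ua, hua⟩ := unit_of_val hp k haw
    obtain ⟨un, hun⟩ := unit_of_val (F := F) hp k (a := (n : 𝓞 F))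
      (fun w hw => nat_notMem hp hw hn)
    exact ⟨n, a, ua, un, hn, ha, haw, hua, hun⟩
  choose n a ua un hn ha haw hua hun using hrep
  let f : RR F p → (𝓞 F ⧸ Ideal.span {(p : 𝓞 F) ^ k})ˣ ⧸ H := fun x =>
    QuotientGroup.mk (ua x * (un x)⁻¹)
  have hf : ∀ x x' : RR F p, f x = f x' → ((x : Fˣ))⁻¹ * (x' : Fˣ) ∈ UF v ⊔ VS F p k := by
    intro x x' hxx
    have h1 := QuotientGroup.eq.mp hxx
    obtain ⟨_, ⟨ε, rfl⟩, y, hy, hεy⟩ := Subgroup.mem_sup.mp h1
    obtain ⟨j, rfl⟩ : ∃ j : ℕ, ux ^ j = y := by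
      have h2 : y ∈ Submonoid.powers ux :=
        (isOfFinOrder_of_finite ux).mem_powers_iff_mem_zpowers.mpr hy
      exact h2
    have h3 : ua x' * un x = ua x * un x' * ρ ε * ux ^ j := by
      have : ua x' * un x = (ua x * un x') * ((ua x * (un x)⁻¹)⁻¹ * (ua x' * (un x')⁻¹)) := by
        rw [mul_inv, inv_inv]
        calc ua x' * un x = (ua x * (ua x)⁻¹) * (un x' * (un x')⁻¹) * (ua x' * un x) := by
              rw [mul_inv_cancel, mul_inv_cancel, one_mul, one_mul]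
          _ = _ := by
              simp only [mul_assoc, mul_comm, mul_left_comm]
      rw [this, ← hεy]
      simp only [mul_assoc]
    have h4 := congrArg Units.val h3
    simp only [Units.val_mul, Units.val_pow_eq_pow_val, hua, hun, hux, hρ] at h4
    rw [← map_mul, ← map_mul, ← map_mul, ← map_pow, ← map_mul] at h4
    have h5 := dvd_of_quot h4
    set b : 𝓞 F := a x' * (n x : 𝓞 F) with hb
    set c : 𝓞 F := a x * (n x' : 𝓞 F) * (ε : 𝓞 F) * x0 ^ j with hc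
    have hmul : ∀ (w : HeightOneSpectrum (𝓞 F)) (s t : 𝓞 F), s ∉ w.asIdeal → t ∉ w.asIdeal →
        s * t ∉ w.asIdeal := fun w s t hs ht h => (w.isPrime.mem_or_mem h).elim hs ht
    have hunit : ∀ (w : HeightOneSpectrum (𝓞 F)) (ε : (𝓞 F)ˣ), (ε : 𝓞 F) ∉ w.asIdeal :=
      fun w ε h => w.isPrime.ne_top (Ideal.eq_top_of_isUnit_mem _ h ε.isUnit)
    have hbw : ∀ w : HeightOneSpectrum (𝓞 F), (p : 𝓞 F) ∈ w.asIdeal → b ∉ w.asIdeal :=
      fun w hw => hmul w _ _ (haw x' w hw) (nat_notMem hp hw (hn x))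
    have hcw : ∀ w : HeightOneSpectrum (𝓞 F), (p : 𝓞 F) ∈ w.asIdeal → c ∉ w.asIdeal :=
      fun w hw => hmul w _ _ (hmul w _ _ (hmul w _ _ (haw x w hw) (nat_notMem hp hw (hn x')))
        (hunit w ε)) (fun h => hx0p w hw (w.isPrime.mem_of_pow_mem j h))
    have hn0 : ∀ x, ((n x : ℕ) : F) ≠ 0 := by
      intro x h
      apply hn x
      have : n x = 0 := by exact_mod_cast h
      rw [this]; exact dvd_zero p
    have hx0F : (x0 : F) ≠ 0 := by
      intro h; apply hx0; exact_mod_cast h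
    have hεF : ((ε : 𝓞 F) : F) ≠ 0 := by
      intro h
      exact ε.ne_zero (by exact_mod_cast h)
    have haF : ∀ x, ((a x : 𝓞 F) : F) ≠ 0 := by
      intro x
      rw [← ha x]
      exact mul_ne_zero (hn0 x) (x : Fˣ).ne_zero
    have hcF : (c : F) ≠ 0 := by
      rw [hc]
      push_cast
      exact mul_ne_zero (mul_ne_zero (mul_ne_zero (haF x) (hn0 x')) hεF) (pow_ne_zero _ hx0F)
    have hbF : (b : F) ≠ 0 := by
      rw [hb]
      push_cast
      exact mul_ne_zero (haF x') (hn0 x)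
    -- the `v`-unit part
    let y1 : Fˣ := Units.mk0 (((ε : 𝓞 F) : F) * (x0 : F) ^ j) (mul_ne_zero hεF (pow_ne_zero _ hx0F))
    let z1 : Fˣ := Units.mk0 ((b : F) / (c : F)) (div_ne_zero hbF hcF)
    have hy1 : y1 ∈ UF v := by
      intro w hw
      change w.valuation F (((ε : 𝓞 F) : F) * (x0 : F) ^ j) = 1
      have h6 : w.valuation F ((ε : 𝓞 F) : F) = 1 :=
        (w.valuation_eq_one_iff_notMem (K := F)).mpr (hunit w ε)
      have h7 : w.valuation F (x0 : F) = 1 :=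
        (w.valuation_eq_one_iff_notMem (K := F)).mpr (hxv w hw)
      rw [map_mul, map_pow, h6, h7, one_pow, one_mul]
    have hz1 : z1 ∈ VS F p k := by
      intro w hw
      have h6 : w.valuation F (b : F) = 1 :=
        (w.valuation_eq_one_iff_notMem (K := F)).mpr (hbw w hw)
      have h7 : w.valuation F (c : F) = 1 :=
        (w.valuation_eq_one_iff_notMem (K := F)).mpr (hcw w hw)
      change w.valuation F ((b : F) / (c : F)) = 1 ∧
        w.valuation F ((b : F) / (c : F) - 1) ≤ w.valuation F ((p : F) ^ k)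
      refine ⟨by rw [map_div₀, h6, h7, div_one], ?_⟩
      rw [div_sub_one hcF, map_div₀, h7, div_one]
      obtain ⟨d, hd⟩ := h5
      have h8 : algebraMap (𝓞 F) F b - algebraMap (𝓞 F) F c
          = (p : F) ^ k * algebraMap (𝓞 F) F d := by
        rw [← map_sub, hd, map_mul, map_pow, map_natCast]
      change w.valuation F (algebraMap (𝓞 F) F b - algebraMap (𝓞 F) F c) ≤ _
      rw [h8, map_mul]
      exact mul_le_of_le_one_right' (w.valuation_le_one d)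
    have hfinal : ((x : Fˣ))⁻¹ * (x' : Fˣ) = y1 * z1 := by
      apply Units.ext
      rw [Units.val_mul, Units.val_mul, Units.val_inv_eq_inv_val]
      change (((x : Fˣ) : F))⁻¹ * ((x' : Fˣ) : F)
        = (((ε : 𝓞 F) : F) * (x0 : F) ^ j) * ((b : F) / (c : F))
      have e1 : ((x : Fˣ) : F) = (a x : F) / (n x : F) := by
        rw [eq_div_iff (hn0 x), mul_comm]; exact ha x
      have e2 : ((x' : Fˣ) : F) = (a x' : F) / (n x' : F) := by
        rw [eq_div_iff (hn0 x'), mul_comm]; exact ha x'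
      rw [e1, e2, hb, hc]
      push_cast
      have := haF x
      have := hn0 x
      have := hn0 x'
      field_simp
    rw [hfinal]
    exact mul_mem (Subgroup.mem_sup_left hy1) (Subgroup.mem_sup_right hz1)
  -- counting
  have hHfin : Finite ((𝓞 F ⧸ Ideal.span {(p : 𝓞 F) ^ k})ˣ ⧸ H) := inferInstance
  let g : RR F p ⧸ (UF v ⊔ VS F p k).subgroupOf (RR F p) →
      (𝓞 F ⧸ Ideal.span {(p : 𝓞 F) ^ k})ˣ ⧸ H := fun q => f q.out
  have hg : Function.Injective g := by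
    intro q q' h
    have h1 := hf _ _ h
    rw [← Quotient.out_eq q, ← Quotient.out_eq q']
    exact QuotientGroup.eq.mpr (Subgroup.mem_subgroupOf.mpr h1)
  have hfinq : Finite (RR F p ⧸ (UF v ⊔ VS F p k).subgroupOf (RR F p)) := Finite.of_injective g hg
  refine ⟨?_, ?_⟩
  · change ((UF v ⊔ VS F p k).subgroupOf (RR F p)).index ≠ 0
    exact Subgroup.index_ne_zero_of_finite
  · change Nat.card (RR F p ⧸ (UF v ⊔ VS F p k).subgroupOf (RR F p)) ≤ C
    exact (Nat.card_le_card_of_injective g hg).trans hHC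

/-- a generator of a power of `v` -/
theorem exists_x0 {p : ℕ} (hp : p.Prime) {v : HeightOneSpectrum (𝓞 F)}
    (hpv : (p : 𝓞 F) ∉ v.asIdeal) : ∃ x0 : 𝓞 F, x0 ≠ 0 ∧
      (∀ w : HeightOneSpectrum (𝓞 F), w ≠ v → x0 ∉ w.asIdeal) ∧
      1 < (Ideal.span {x0}).absNorm ∧ Nat.Coprime (Ideal.span {x0}).absNorm p := by
  classical
  have hv0 : v.asIdeal ∈ nonZeroDivisors (Ideal (𝓞 F)) := mem_nonZeroDivisors_of_ne_zero v.ne_bot
  set h := Fintype.card (ClassGroup (𝓞 F)) with hh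
  have hh0 : 0 < h := Fintype.card_pos
  have h1 : ClassGroup.mk0 ((⟨v.asIdeal, hv0⟩ : nonZeroDivisors (Ideal (𝓞 F))) ^ h) = 1 := by
    rw [map_pow]; exact pow_card_eq_one
  rw [ClassGroup.mk0_eq_one_iff] at h1
  obtain ⟨x0, hx0⟩ := h1
  have hx : Ideal.span {x0} = v.asIdeal ^ h := by
    rw [← Ideal.submodule_span_eq, ← hx0]
    rfl
  have hne : Ideal.span {x0} ≠ ⊥ := by
    rw [hx]; exact pow_ne_zero _ v.ne_bot
  have hx00 : x0 ≠ 0 := by
    rintro rfl; exact hne (by simp)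
  refine ⟨x0, hx00, ?_, ?_, ?_⟩
  · intro w hw hmem
    apply hw
    have h2 : v.asIdeal ^ h ≤ w.asIdeal := by
      rw [← hx, Ideal.span_singleton_le_iff_mem]; exact hmem
    have h3 : v.asIdeal ≤ w.asIdeal := Ideal.IsPrime.le_of_pow_le h2
    exact (HeightOneSpectrum.ext (v.isMaximal.eq_of_le w.isPrime.ne_top h3)).symm
  · rw [hx, map_pow]
    apply Nat.one_lt_pow hh0.ne'
    have h4 : v.asIdeal.absNorm ≠ 1 := by
      rw [Ne, Ideal.absNorm_eq_one_iff]; exact v.isPrime.ne_top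
    have h5 : v.asIdeal.absNorm ≠ 0 := by
      rw [Ideal.absNorm_ne_zero_iff]
      exact Ideal.finiteQuotientOfFreeOfNeBot _ v.ne_bot
    omega
  · rw [hx, map_pow]
    apply Nat.Coprime.pow_left
    rw [Nat.coprime_comm, Nat.Prime.coprime_iff_not_dvd hp]
    intro hdvd
    have hfin : Finite (𝓞 F ⧸ v.asIdeal) := Ideal.finiteQuotientOfFreeOfNeBot _ v.ne_bot
    rw [Ideal.absNorm_apply, Submodule.cardQuot_apply] at hdvd
    have : Fact p.Prime := ⟨hp⟩
    obtain ⟨y, hy⟩ := exists_prime_addOrderOf_dvd_card' (G := 𝓞 F ⧸ v.asIdeal) p hdvd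
    have h6 : p • y = 0 := by rw [← hy]; exact addOrderOf_nsmul_eq_zero y
    rw [nsmul_eq_mul] at h6
    have h7 : (p : 𝓞 F ⧸ v.asIdeal) ≠ 0 := by
      intro h8
      apply hpv
      rw [← Ideal.Quotient.eq_zero_iff_mem, map_natCast]
      exact h8
    have h9 : IsDomain (𝓞 F ⧸ v.asIdeal) := Ideal.Quotient.isDomain _
    have h10 : y = 0 := (mul_eq_zero.mp h6).resolve_left h7
    rw [h10, addOrderOf_zero] at hy
    exact hp.ne_one hy.symm

/-- **PropE** in the form `Clos`, degree at most two. -/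
theorem clos_le2 (F : Type*) [Field F] [NumberField F] [IsTotallyReal F]
    (h : Module.finrank ℚ F ≤ 2) (p : ℕ) (hp : p.Prime) (hp2 : p ≠ 2)
    (v : HeightOneSpectrum (𝓞 F)) (hpv : (p : 𝓞 F) ∉ v.asIdeal) :
    ∃ C : ℕ, ∀ k : ℕ, (UF v ⊔ VS F p k).relIndex (RR F p) ≠ 0 ∧
      (UF v ⊔ VS F p k).relIndex (RR F p) ≤ C := by
  obtain ⟨x0, h0, h1, h2, h3⟩ := exists_x0 hp hpv
  exact clos_of hp hpv h0 h1 (clo F h p hp hp2 x0 h2 h3)

theorem propE : PropE := fun F _ _ _ h p hp hp2 v hpv => clos_le2 F h p hp hp2 v hpv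

end main

end Vale.Agent.P024.H379
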