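import Vale.Agent.P024.H379.W.ClosT
import Vale.Agent.P024.H244.M3T.Final

/-!
P024, block NORM (helper379): a character of an open normal subgroup `H` of the absolute Galois
group of the rationals, invariant under a conjugation `f` and killed by infinitely many
decomposition groups with Frobenius in the class of `f`, has finite order.
-/

namespace Vale.Agent.P024.H379.Norm

open NumberField IsDedekindDomain

section Abstract

variable {G A : Type*} [Group G] [CommGroup A]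

/-- invariance under all conjugations -/
theorem inv_all (H : Subgroup G) (hn : H.Normal) (ψ : H →* A) (f : G)
    (hgen : ∀ g : G, ∃ i : ℤ, ∃ x ∈ H, g = f ^ i * x)
    (hinv : ∀ x : H, ψ ⟨f * x * f⁻¹, hn.conj_mem _ x.2 f⟩ = ψ x) (g : G) (x : H) :
    ψ ⟨g * x * g⁻¹, hn.conj_mem _ x.2 g⟩ = ψ x := by
  let W : Subgroup G :=
    { carrier := {g | ∀ x : H, ψ ⟨g * x * g⁻¹, hn.conj_mem _ x.2 g⟩ = ψ x}
      one_mem' := by
        intro x
        congr 1
        apply Subtype.ext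
        simp
      mul_mem' := by
        intro a b ha hb x
        have h1 := ha ⟨b * x * b⁻¹, hn.conj_mem _ x.2 b⟩
        rw [hb x] at h1
        rw [← h1]
        congr 1
        apply Subtype.ext
        simp [mul_assoc]
      inv_mem' := by
        intro a ha x
        have h1 := ha ⟨a⁻¹ * x * a⁻¹⁻¹, hn.conj_mem _ x.2 a⁻¹⟩
        rw [← h1]
        congr 1
        apply Subtype.ext
        simp [mul_assoc] }
  have hf : f ∈ W := hinv
  have hH : H ≤ W := by
    intro h hh x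
    have h1 : (⟨h * x * h⁻¹, hn.conj_mem _ x.2 h⟩ : H) = ⟨h, hh⟩ * x * ⟨h, hh⟩⁻¹ := by
      apply Subtype.ext
      simp
    rw [h1, map_mul, map_mul, map_inv, mul_comm (ψ ⟨h, hh⟩), mul_assoc, mul_inv_cancel, mul_one]
  obtain ⟨i, y, hy, rfl⟩ := hgen g
  exact (W.mul_mem (W.zpow_mem hf i) (hH hy) : f ^ i * y ∈ W) x

/-- The extension of an invariant character. -/
theorem exists_ext (H : Subgroup G) (hn : H.Normal) (ψ : H →* A) (f : G)
    (hgen : ∀ g : G, ∃ i : ℤ, ∃ x ∈ H, g = f ^ i * x)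
    (hinv : ∀ x : H, ψ ⟨f * x * f⁻¹, hn.conj_mem _ x.2 f⟩ = ψ x) (e : ℕ)
    (he : ∀ g : G, g ^ e ∈ H) : ∃ ψ' : G →* A, ∀ g, ψ' g = ψ ⟨g ^ e, he g⟩ := by
  have hall := inv_all H hn ψ f hgen hinv
  let N : Subgroup G := ψ.ker.map H.subtype
  have hN : ∀ g, g ∈ N ↔ ∃ h : g ∈ H, ψ ⟨g, h⟩ = 1 := by
    intro g
    constructor
    · rintro ⟨x, hx, rfl⟩
      exact ⟨x.2, hx⟩
    · rintro ⟨h, hg⟩
      exact ⟨⟨g, h⟩, hg, rfl⟩
  have hNn : N.Normal := by
    constructor
    intro n hn' g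
    obtain ⟨h, hψ⟩ := (hN n).mp hn'
    refine (hN _).mpr ⟨hn.conj_mem _ h g, ?_⟩
    rw [← hψ]
    exact hall g ⟨n, h⟩
  let π : G →* G ⧸ N := QuotientGroup.mk' N
  have hπ : ∀ a b : G, π a = π b → ∀ (ha : a ∈ H) (hb : b ∈ H), ψ ⟨a, ha⟩ = ψ ⟨b, hb⟩ := by
    intro a b hab ha hb
    have h1 : a⁻¹ * b ∈ N := QuotientGroup.eq.mp hab
    obtain ⟨h, hψ⟩ := (hN _).mp h1
    have h2 : (⟨a⁻¹ * b, h⟩ : H) = ⟨a, ha⟩⁻¹ * ⟨b, hb⟩ := rfl
    rw [h2, map_mul, map_inv] at hψ
    exact (inv_mul_eq_one.mp hψ)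
  -- `H / N` is central
  have hcen : ∀ x ∈ H, ∀ q : G ⧸ N, Commute (π x) q := by
    intro x hx q
    obtain ⟨b, rfl⟩ := QuotientGroup.mk'_surjective N q
    change π x * π b = π b * π x
    rw [← map_mul, ← map_mul]
    apply QuotientGroup.eq.mpr
    refine (hN _).mpr ?_
    have h1 : (x * b)⁻¹ * (b * x) = b⁻¹ * x⁻¹ * b * x := by group
    have hx' : b⁻¹ * x⁻¹ * b⁻¹⁻¹ ∈ H := hn.conj_mem _ (H.inv_mem hx) b⁻¹
    have hmem : (x * b)⁻¹ * (b * x) ∈ H := by
      rw [h1]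
      have := H.mul_mem hx' hx
      simpa using this
    refine ⟨hmem, ?_⟩
    have h2 : (⟨(x * b)⁻¹ * (b * x), hmem⟩ : H) =
        ⟨b⁻¹ * ((⟨x, hx⟩⁻¹ : H) : G) * b⁻¹⁻¹, hn.conj_mem _ (⟨x, hx⟩⁻¹ : H).2 b⁻¹⟩ * ⟨x, hx⟩ := by
      apply Subtype.ext
      simp [mul_assoc]
    rw [h2, map_mul, hall b⁻¹ (⟨x, hx⟩⁻¹ : H), map_inv, inv_mul_cancel]
  have hcomm : ∀ a b : G, Commute (π a) (π b) := by
    intro a b
    obtain ⟨i, x, hx, rfl⟩ := hgen a
    obtain ⟨j, y, hy, rfl⟩ := hgen b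
    rw [map_mul, map_mul, map_zpow, map_zpow]
    have h1 : Commute (π f ^ i) (π f ^ j) := (Commute.refl (π f)).zpow_zpow i j
    refine Commute.mul_left ?_ (hcen x hx _)
    exact Commute.mul_right h1 ((hcen y hy _).symm)
  refine ⟨MonoidHom.mk' (fun g => ψ ⟨g ^ e, he g⟩) ?_, fun g => rfl⟩
  intro a b
  have h1 : π ((a * b) ^ e) = π (a ^ e * b ^ e) := by
    rw [map_pow, map_mul, (hcomm a b).mul_pow, map_mul, map_pow, map_pow]
  have h2 := hπ _ _ h1 (he _) (H.mul_mem (he a) (he b))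
  change ψ ⟨(a * b) ^ e, _⟩ = ψ ⟨a ^ e, _⟩ * ψ ⟨b ^ e, _⟩
  rw [h2, ← map_mul]
  rfl

end Abstract

theorem continuous_into {G : Type*} [Group G] [TopologicalSpace G] [IsTopologicalGroup G]
    {K L : Type*} [Field K] [Field L] [Algebra K L] (φ : G →* (L ≃ₐ[K] L))
    (h : ∀ x : L, IsOpen {g : G | φ g x = x}) : Continuous φ := by
  apply continuous_of_continuousAt_one
  rw [ContinuousAt, map_one]
  intro A hA
  rw [krullTopology_mem_nhds_one_iff] at hA
  obtain ⟨E, hE, hEA⟩ := hA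
  rw [Filter.mem_map]
  let b := Module.finBasis K E
  have h1 : (⋂ i, {g : G | φ g (b i : L) = (b i : L)}) ∈ nhds (1 : G) := by
    refine (isOpen_iInter_of_finite fun i => h (b i : L)).mem_nhds ?_
    simp
  refine Filter.mem_of_superset h1 ?_
  intro g hg
  apply hEA
  change φ g ∈ E.fixingSubgroup
  rw [IntermediateField.mem_fixingSubgroup_iff]
  intro x hx
  have h2 : ∀ y : E, φ g (y : L) = (y : L) := by
    intro y
    have h3 := b.sum_repr y
    have h4 : (y : L) = ∑ i, b.repr y i • (b i : L) := by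
      have h5 := congrArg E.val h3
      rw [map_sum] at h5
      simp only [map_smul, IntermediateField.coe_val] at h5
      exact h5.symm
    rw [h4, map_sum]
    apply Finset.sum_congr rfl
    intro i _
    rw [map_smul]
    congr 1
    exact Set.mem_iInter.mp hg i
  exact h2 ⟨x, hx⟩

section Closure

open Vale.Agent.P024

/-- `noSplit` for degree-one primes and an arbitrary algebraic closure. -/
theorem fin_of_kills (D : Type*) [Field D] [NumberField D] (Ω : Type*) [Field Ω] [Algebra D Ω]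
    [IsAlgClosure D Ω] (p : ℕ) [hp : Fact p.Prime] (hp2 : p ≠ 2) (ψ : (Ω ≃ₐ[D] Ω) →* ℤ_[p]ˣ)
    (hψ : Continuous ψ) (V : Set (HeightOneSpectrum (𝓞 D))) (hV : V.Infinite)
    (hdeg : ∀ v ∈ V, (Ideal.absNorm v.asIdeal).Prime) (hkill : ∀ v ∈ V, TR.Kills ψ v) :
    ∃ m : ℕ, 0 < m ∧ ∀ g, ψ g ^ m = 1 := by
  have hc1 : IsAlgClosure D (AlgebraicClosure D) := inferInstance
  let e : AlgebraicClosure D ≃ₐ[D] Ω := IsAlgClosure.equiv D _ _
  let c : (AlgebraicClosure D ≃ₐ[D] AlgebraicClosure D) ≃* (Ω ≃ₐ[D] Ω) := AlgEquiv.autCongr e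
  have hca : ∀ g x, c g x = e (g (e.symm x)) := fun g x => rfl
  have hcc : Continuous c := by
    refine continuous_into c.toMonoidHom (fun x => ?_)
    have h1 : {g : AlgebraicClosure D ≃ₐ[D] AlgebraicClosure D | c.toMonoidHom g x = x} =
        (MulAction.stabilizer (AlgebraicClosure D ≃ₐ[D] AlgebraicClosure D) (e.symm x) :
          Set (AlgebraicClosure D ≃ₐ[D] AlgebraicClosure D)) := by
      ext g
      change e (g (e.symm x)) = x ↔ g (e.symm x) = e.symm x
      constructor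
      · intro h
        apply e.injective
        rw [h, AlgEquiv.apply_symm_apply]
      · intro h
        rw [h, AlgEquiv.apply_symm_apply]
    rw [h1]
    exact stabilizer_isOpen_of_isIntegral (e.symm x)
  obtain ⟨T, hTV, hTf, hTp, hclos⟩ := W.w_closT D V hV hdeg p hp2
  obtain ⟨m, hm, hmψ⟩ := H244.M3T.finite_of_closT D p hp2 (ψ.comp c.toMonoidHom)
    (hψ.comp hcc) T hTf hTp (by
      intro v hv O hO s hs
      change ψ (c s) = 1
      refine hkill v (hTV hv) (O.comap (e.symm : Ω →+* AlgebraicClosure D)) ?_ (c s) ?_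
      · intro x
        rw [hO x, nonunits_iff, nonunits_iff]
        have h1 : e.symm (algebraMap D Ω x) = algebraMap D (AlgebraicClosure D) x :=
          e.symm.commutes x
        have h2 : (algebraMap D Ω x)⁻¹ ∈ O.comap (e.symm : Ω →+* AlgebraicClosure D) ↔
            (algebraMap D (AlgebraicClosure D) x)⁻¹ ∈ O := by
          change e.symm ((algebraMap D Ω x)⁻¹) ∈ O ↔ _
          rw [map_inv₀, h1]
        have h3 : algebraMap D (AlgebraicClosure D) (x : D) = 0 ↔ algebraMap D Ω (x : D) = 0 := by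
          rw [map_eq_zero_iff _ (algebraMap D (AlgebraicClosure D)).injective,
            map_eq_zero_iff _ (algebraMap D Ω).injective]
        exact or_congr h3 (not_congr h2.symm)
      · intro x
        change e.symm (c s x) ∈ O ↔ e.symm x ∈ O
        rw [hca, AlgEquiv.symm_apply_apply]
        exact hs _) hclos
  refine ⟨m, hm, fun g => ?_⟩
  obtain ⟨g', rfl⟩ := c.surjective g
  exact hmψ g'

end Closure

section Degree

theorem card_eq {k : Type*} [CommRing k] [IsDomain k] [Finite k] {r : ℕ} (hr : r.Prime)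
    (h0 : (r : k) = 0) (hfix : ∀ y : k, y ^ r = y) : Nat.card k = r := by
  classical
  have h1 : r ∣ Nat.card k := by
    have h2 : addOrderOf (1 : k) = r := by
      have : Fact r.Prime := ⟨hr⟩
      apply addOrderOf_eq_prime
      · rw [nsmul_one]
        exact h0
      · exact one_ne_zero
    rw [← h2]
    exact addOrderOf_dvd_natCard _
  refine le_antisymm ?_ (Nat.le_of_dvd Nat.card_pos h1)
  have : Fintype k := Fintype.ofFinite _
  have hdeg : (Polynomial.X ^ r - Polynomial.X : Polynomial k).natDegree = r := by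
    rw [Polynomial.natDegree_sub_eq_left_of_natDegree_lt, Polynomial.natDegree_X_pow]
    rw [Polynomial.natDegree_X_pow, Polynomial.natDegree_X]
    exact hr.one_lt
  have hP : (Polynomial.X ^ r - Polynomial.X : Polynomial k) ≠ 0 := by
    intro h
    rw [h, Polynomial.natDegree_zero] at hdeg
    exact hr.ne_zero hdeg.symm
  have h3 : Nat.card k ≤
      (Polynomial.X ^ r - Polynomial.X : Polynomial k).roots.toFinset.card := by
    rw [Nat.card_eq_fintype_card, ← Finset.card_univ]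
    apply Finset.card_le_card
    intro y _
    rw [Multiset.mem_toFinset, Polynomial.mem_roots hP]
    simp [hfix y]
  exact h3.trans ((Multiset.toFinset_card_le _).trans ((Polynomial.card_roots' _).trans hdeg.le))

variable {D : Type*} [Field D] [NumberField D]

/-- a prime with residue field fixed by the `r`-th power map has norm `r` -/
theorem absNorm_eq (v : HeightOneSpectrum (𝓞 D)) {r : ℕ} (hr : r.Prime)
    (hrv : (r : 𝓞 D) ∈ v.asIdeal) (h : ∀ x : 𝓞 D, x - x ^ r ∈ v.asIdeal) :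
    Ideal.absNorm v.asIdeal = r := by
  have hfin : Finite (𝓞 D ⧸ v.asIdeal) := Ideal.finiteQuotientOfFreeOfNeBot _ v.ne_bot
  have hdom : IsDomain (𝓞 D ⧸ v.asIdeal) := Ideal.Quotient.isDomain _
  rw [Ideal.absNorm_apply, Submodule.cardQuot_apply]
  refine card_eq hr ?_ ?_
  · have := (Ideal.Quotient.eq_zero_iff_mem).mpr hrv
    rwa [map_natCast] at this
  · intro y
    obtain ⟨x, rfl⟩ := Ideal.Quotient.mk_surjective y
    rw [← map_pow]
    exact (Ideal.Quotient.eq.mpr (h x)).symm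

end Degree

section Main

variable {Ω : Type*} [Field Ω] [Algebra ℚ Ω] [IsAlgClosure ℚ Ω]

/-- **NORM.** -/
theorem norm_fin (p : ℕ) [hp : Fact p.Prime] (hp2 : p ≠ 2) (H : Subgroup (Ω ≃ₐ[ℚ] Ω))
    (hn : H.Normal) (hH : IsOpen (H : Set (Ω ≃ₐ[ℚ] Ω))) (ψ : H →* ℤ_[p]ˣ) (hψ : Continuous ψ)
    (f : Ω ≃ₐ[ℚ] Ω) (hinv : ∀ x : H, ψ ⟨f * x * f⁻¹, hn.conj_mem _ x.2 f⟩ = ψ x) (R : Set ℕ)
    (hR : R.Infinite) (hkill : ∀ r ∈ R, r.Prime ∧ ∃ (O : ValuationSubring Ω) (φ : Ω ≃ₐ[ℚ] Ω),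
      (r : Ω) ∈ O.nonunits ∧ φ⁻¹ * f ∈ H ∧ (∀ x ∈ O, φ x - x ^ r ∈ O.nonunits) ∧
      (∀ s : H, (∀ x, (s : Ω ≃ₐ[ℚ] Ω) x ∈ O ↔ x ∈ O) → ψ s = 1)) :
    ∃ m : ℕ, 0 < m ∧ ∀ x, ψ x ^ m = 1 := by
  classical
  have hchar : CharZero Ω := charZero_of_injective_algebraMap (algebraMap ℚ Ω).injective
  have hnormal : Normal ℚ Ω := IsAlgClosure.normal ℚ Ω
  have hgal : IsGalois ℚ Ω := ⟨⟩
  have halg : Algebra.IsAlgebraic ℚ Ω := IsAlgClosure.isAlgebraic
  have hac : IsAlgClosed Ω := IsAlgClosure.isAlgClosed ℚ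
  -- the exponent
  have hfinH : Finite ((Ω ≃ₐ[ℚ] Ω) ⧸ H) := Subgroup.quotient_finite_of_isOpen H hH
  set e := H.index with he
  have he0 : 0 < e := Nat.pos_of_ne_zero Subgroup.index_ne_zero_of_finite
  have hpow : ∀ g : Ω ≃ₐ[ℚ] Ω, g ^ e ∈ H := fun g => H.pow_index_mem g
  -- the field
  set U : Subgroup (Ω ≃ₐ[ℚ] Ω) := H ⊔ Subgroup.zpowers f with hU
  have hUo : IsOpen (U : Set (Ω ≃ₐ[ℚ] Ω)) := Subgroup.isOpen_mono le_sup_left hH
  have hUc : IsClosed (U : Set (Ω ≃ₐ[ℚ] Ω)) := Subgroup.isClosed_of_isOpen U hUo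
  let D : IntermediateField ℚ Ω := IntermediateField.fixedField U
  have hDU : D.fixingSubgroup = U := InfiniteGalois.fixingSubgroup_fixedField ⟨U, hUc⟩
  have hDfin : FiniteDimensional ℚ D := by
    rw [← InfiniteGalois.isOpen_iff_finite]
    change IsOpen (D.fixingSubgroup : Set (Ω ≃ₐ[ℚ] Ω))
    rw [hDU]
    exact hUo
  have halg2 : @Algebra.IsAlgebraic ℚ Ω _ _ DivisionRing.toRatAlgebra := by
    have h : (DivisionRing.toRatAlgebra : Algebra ℚ Ω) = ‹Algebra ℚ Ω› := Subsingleton.elim _ _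
    rw [h]
    exact halg
  have hDnf : NumberField D := by
    have hc : CharZero D := charZero_of_injective_algebraMap (algebraMap ℚ D).injective
    have h : (DivisionRing.toRatAlgebra : Algebra ℚ D) = D.algebra' := Subsingleton.elim _ _
    have h2 : @FiniteDimensional ℚ D _ _ (@Algebra.toModule ℚ D _ _ DivisionRing.toRatAlgebra) := by
      rw [h]
      exact hDfin
    exact @NumberField.mk D _ hc h2
  have hDalg : Algebra.IsAlgebraic D Ω := Algebra.IsAlgebraic.tower_top (K := ℚ) D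
  have hDint : Algebra.IsIntegral D Ω := Algebra.IsAlgebraic.isIntegral
  have hDclos : IsAlgClosure D Ω := ⟨hac, hDalg⟩
  have hDnormal : Normal D Ω := IsAlgClosure.normal D Ω
  have hDgal : IsGalois D Ω := ⟨⟩
  let ρ : (Ω ≃ₐ[D] Ω) →* (Ω ≃ₐ[ℚ] Ω) := AlgEquiv.restrictScalarsHom ℚ
  have hρa : ∀ (g : Ω ≃ₐ[D] Ω) (x : Ω), ρ g x = g x := fun g x => rfl
  have hρc : Continuous ρ := by
    refine continuous_into ρ (fun x => ?_)
    exact stabilizer_isOpen_of_isIntegral x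
  have hρU : ∀ g, ρ g ∈ U := by
    intro g
    rw [← hDU, IntermediateField.mem_fixingSubgroup_iff]
    intro x hx
    exact g.commutes ⟨x, hx⟩
  have hlift : ∀ u ∈ U, ∃ g : Ω ≃ₐ[D] Ω, ρ g = u := by
    intro u hu
    rw [← hDU] at hu
    refine ⟨IntermediateField.fixingSubgroupEquiv D ⟨u, hu⟩, ?_⟩
    rfl
  obtain ⟨f', hf'⟩ := hlift f (Subgroup.mem_sup_right (Subgroup.mem_zpowers f))
  -- the subgroup and the character
  let H' : Subgroup (Ω ≃ₐ[D] Ω) := H.comap ρ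
  have hn' : H'.Normal := Subgroup.Normal.comap hn ρ
  let ψ₁ : H' →* ℤ_[p]ˣ := ψ.comp (ρ.subgroupComap H)
  have hψ₁ : ∀ x : H', ψ₁ x = ψ ⟨ρ x, x.2⟩ := fun x => rfl
  have hgen : ∀ g : Ω ≃ₐ[D] Ω, ∃ i : ℤ, ∃ x ∈ H', g = f' ^ i * x := by
    intro g
    obtain ⟨y, hy, z, hz, hyz⟩ := Subgroup.mem_sup_of_normal_left.mp (hρU g)
    obtain ⟨i, rfl⟩ := Subgroup.mem_zpowers_iff.mp hz
    refine ⟨i, (f' ^ i)⁻¹ * g, ?_, by group⟩
    change ρ ((f' ^ i)⁻¹ * g) ∈ H
    rw [map_mul, map_inv, map_zpow, hf', ← hyz]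
    have := hn.conj_mem y hy (f ^ i)⁻¹
    simpa [mul_assoc] using this
  have hinv' : ∀ x : H', ψ₁ ⟨f' * x * f'⁻¹, hn'.conj_mem _ x.2 f'⟩ = ψ₁ x := by
    intro x
    rw [hψ₁, hψ₁, ← hinv ⟨ρ x, x.2⟩]
    congr 1
    apply Subtype.ext
    change ρ (f' * x * f'⁻¹) = f * ρ x * f⁻¹
    rw [map_mul, map_mul, map_inv, hf']
  have he' : ∀ g : Ω ≃ₐ[D] Ω, g ^ e ∈ H' := by
    intro g
    change ρ (g ^ e) ∈ H
    rw [map_pow]
    exact hpow _
  obtain ⟨ψ', hψ'⟩ := exists_ext H' hn' ψ₁ f' hgen hinv' e he'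
  have hψ'c : Continuous ψ' := by
    have h1 : (ψ' : (Ω ≃ₐ[D] Ω) → ℤ_[p]ˣ) = fun g => ψ ⟨ρ (g ^ e), he' g⟩ := by
      funext g
      rw [hψ' g]
      rfl
    rw [h1]
    exact hψ.comp ((hρc.comp (continuous_pow e)).subtype_mk _)
  let Ψ : (Ω ≃ₐ[D] Ω) →* ℤ_[p]ˣ := (powMonoidHom e).comp ψ'
  have hΨ : ∀ g, Ψ g = ψ' g ^ e := fun g => rfl
  have hΨc : Continuous Ψ := (continuous_pow e).comp hψ'c
  have hΨH : ∀ x : H', Ψ x = ψ₁ x ^ (e * e) := by
    intro x
    have h1 : (⟨(x : Ω ≃ₐ[D] Ω) ^ e, he' x⟩ : H') = x ^ e := rfl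
    rw [hΨ, hψ', h1, map_pow, pow_mul]
  -- the primes
  have hprime : ∀ r ∈ R, ∃ v : HeightOneSpectrum (𝓞 D), Ideal.absNorm v.asIdeal = r ∧
      TR.Kills Ψ v := by
    intro r hr
    obtain ⟨hrp, O, φ, hrO, hφ, hφO, hs⟩ := hkill r hr
    have hO : O ≠ ⊤ := by
      rintro rfl
      rcases nonunits_iff.mp hrO with h | h
      · exact hrp.ne_zero (by exact_mod_cast h)
      · exact h trivial
    obtain ⟨v, hv⟩ := exists_center (K := D) O hO
    have hφU : φ ∈ U := by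
      have h1 : φ = f * (φ⁻¹ * f)⁻¹ := by group
      rw [h1]
      exact U.mul_mem (Subgroup.mem_sup_right (Subgroup.mem_zpowers f))
        (U.inv_mem (Subgroup.mem_sup_left hφ))
    have hφD : ∀ x : D, φ (x : Ω) = x := by
      intro x
      rw [← hDU, IntermediateField.mem_fixingSubgroup_iff] at hφU
      exact hφU x x.2
    refine ⟨v, absNorm_eq v hrp ?_ ?_, ?_⟩
    · rw [hv]
      simpa using hrO
    · intro x
      rw [hv]
      have h1 : algebraMap D Ω (x : D) ∈ O :=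
        coe_mem_valuationSubring O (algebraMap (𝓞 D) (𝓞 Ω) x)
      have h2 := hφO _ h1
      have h3 : φ (algebraMap D Ω (x : D)) = algebraMap D Ω (x : D) := hφD x
      rw [h3] at h2
      simpa using h2
    · intro O' hO' s hs'
      have hO'top : O' ≠ ⊤ := ne_top_of_center hO'
      obtain ⟨g, hg⟩ := exists_conj (M := D) O O' hO hO'top (fun x => by
        rw [(mem_iff_of_center O hO v hv x).1, (mem_iff_of_center O' hO'top v hO' x).1])
      -- `g⁻¹ s g` stabilizes `O`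
      have h1 : Stab O (g⁻¹ * s * g) := by
        intro x
        have h2 : (g⁻¹ * s * g) x = g⁻¹ (s (g x)) := rfl
        rw [h2, ← hg, ← AlgEquiv.mul_apply, mul_inv_cancel, AlgEquiv.one_apply, hs' (g x), hg]
      have h2 : Ψ (g⁻¹ * s * g) = Ψ s := by
        rw [map_mul, map_mul, map_inv, mul_comm (Ψ g)⁻¹, mul_assoc, inv_mul_cancel, mul_one]
      rw [← h2]
      set t := g⁻¹ * s * g with ht
      have h3 : Stab O (t ^ e) := by
        have : ∀ n : ℕ, Stab O (t ^ n) := by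
          intro n
          induction n with
          | zero => intro x; simp
          | succ n ih =>
            intro x
            have h5 : (t ^ (n + 1)) x = (t ^ n) (t x) := by
              rw [pow_succ]; rfl
            rw [h5, ih, h1]
        exact this e
      have h4 : ψ₁ ⟨t ^ e, he' t⟩ = 1 := hs ⟨ρ (t ^ e), he' t⟩ h3
      have h5 : Ψ t = ψ' (t ^ e) := by rw [hΨ, map_pow]
      rw [h5, hψ']
      have h6 : (⟨(t ^ e) ^ e, he' (t ^ e)⟩ : H') = ⟨t ^ e, he' t⟩ ^ e := rfl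
      rw [h6, map_pow, h4, one_pow]
  choose v hvn hvk using hprime
  have hRi : Infinite R := hR.to_subtype
  have hinj : Function.Injective (fun r : R => v r r.2) := by
    intro r r' h
    apply Subtype.ext
    rw [← hvn r r.2, ← hvn r' r'.2]
    exact congrArg (fun w : HeightOneSpectrum (𝓞 D) => Ideal.absNorm w.asIdeal) h
  obtain ⟨m, hm, hmΨ⟩ := fin_of_kills D Ω p hp2 Ψ hΨc (Set.range (fun r : R => v r r.2))
    (Set.infinite_range_of_injective hinj)
    (by
      rintro _ ⟨r, rfl⟩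
      change (Ideal.absNorm (v r r.2).asIdeal).Prime
      rw [hvn r r.2]
      exact (hkill r r.2).1)
    (by
      rintro _ ⟨r, rfl⟩
      exact hvk r r.2)
  refine ⟨e * e * m, by positivity, fun x => ?_⟩
  obtain ⟨x', hx'⟩ := hlift x (Subgroup.mem_sup_left x.2)
  have hx'H : x' ∈ H' := by
    change ρ x' ∈ H
    rw [hx']
    exact x.2
  have h1 : ψ₁ ⟨x', hx'H⟩ = ψ x := by
    rw [hψ₁]
    congr 1
    exact Subtype.ext hx'
  rw [← h1, pow_mul, ← hΨH ⟨x', hx'H⟩]
  exact hmΨ x'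

end Main

end Vale.Agent.P024.H379.Norm
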