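import Mathlib

/-! P024, block M3 (e): the closure index of `<units, x>` in `(O_F/p^k)^*`,
`F` totally real of degree at most two. -/

namespace Vale.Agent.P024.H379

open NumberField Finset

section lte

variable {R : Type*} [CommRing R]

/-- `(1 + p y)^i = 1 + i p y` modulo `p^2`. -/
theorem one_add_pow_aux (P y : R) (i : ℕ) : ∃ t : R, (1 + P * y) ^ i = 1 + (i : R) * (P * y) + P ^ 2 * t := by
  induction i with
  | zero => exact ⟨0, by simp⟩
  | succ i ih =>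
    obtain ⟨t, ht⟩ := ih
    refine ⟨t * (1 + P * y) + (i : R) * y ^ 2, ?_⟩
    rw [pow_succ, ht]
    push_cast
    ring

theorem geom_p (p : ℕ) (hp : Odd p) (y : R) :
    ∃ t : R, ∑ i ∈ range p, (1 + (p : R) * y) ^ i = (p : R) * (1 + (p : R) * t) := by
  choose t ht using one_add_pow_aux (p : R) y
  obtain ⟨m, hm⟩ := hp
  refine ⟨(m : R) * y + ∑ i ∈ range p, t i, ?_⟩
  have h1 : ∑ i ∈ range p, (1 + (p : R) * y) ^ i
      = (p : R) + (∑ i ∈ range p, (i : R)) * ((p : R) * y) + (p : R) ^ 2 * ∑ i ∈ range p, t i := by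
    rw [Finset.sum_congr rfl (fun i _ => ht i), Finset.sum_add_distrib, Finset.sum_add_distrib,
      Finset.sum_const, Finset.card_range, ← Finset.sum_mul, ← Finset.mul_sum]
    simp
  have h2 : (∑ i ∈ range p, (i : R)) = (p : R) * (m : R) := by
    have h3 : (∑ i ∈ range p, i) = p * m := by
      have h4 := Finset.sum_range_id_mul_two p
      have h5 : p * (p - 1) = (p * m) * 2 := by
        have : p - 1 = 2 * m := by omega
        rw [this]; ring
      omega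
    have h6 := congrArg (fun n : ℕ => (n : R)) h3
    push_cast at h6
    exact h6
  rw [h1, h2]
  ring

theorem geom_mod (P y : R) (m : ℕ) :
    ∃ t : R, ∑ i ∈ range m, (1 + P * y) ^ i = (m : R) + P * t := by
  choose t ht using one_add_pow_aux P y
  refine ⟨∑ i ∈ range m, ((i : R) * y + P * t i), ?_⟩
  rw [Finset.sum_congr rfl (fun i _ => ht i), Finset.mul_sum]
  have : (m : R) = ∑ i ∈ range m, (1 : R) := by simp
  rw [this, ← Finset.sum_add_distrib]
  refine Finset.sum_congr rfl (fun i _ => by ring)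

variable [IsDomain R]

/-- exact divisibility of `z - 1` by `p^s` -/
def Ex (p : ℕ) (s : ℕ) (z : R) : Prop := (p : R) ^ s ∣ z - 1 ∧ ¬ (p : R) ^ (s + 1) ∣ z - 1

theorem ex_pow_p {p : ℕ} (hp : Odd p) (hp0 : (p : R) ≠ 0) {s : ℕ} (hs : 1 ≤ s) {z : R}
    (hz : Ex p s z) : Ex p (s + 1) (z ^ p) := by
  obtain ⟨⟨w, hw⟩, h2⟩ := hz
  obtain ⟨s, rfl⟩ : ∃ r, s = r + 1 := ⟨s - 1, by omega⟩
  have hz1 : z = 1 + (p : R) * ((p : R) ^ s * w) := by
    have : z = 1 + (z - 1) := by ring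
    rw [this, hw]; ring
  obtain ⟨t, ht⟩ := geom_p p hp ((p : R) ^ s * w)
  rw [← hz1] at ht
  have h3 : z ^ p - 1 = (p : R) ^ (s + 1 + 1) * (w * (1 + (p : R) * t)) := by
    have h4 := mul_geom_sum z p
    rw [← h4, ht, hw]; ring
  refine ⟨⟨_, h3⟩, ?_⟩
  rintro ⟨u, hu⟩
  rw [h3, pow_succ (p : R) (s + 1 + 1), mul_assoc] at hu
  have h5 := mul_left_cancel₀ (pow_ne_zero _ hp0) hu
  apply h2
  refine ⟨u - t * w, ?_⟩
  rw [hw]
  have h6 : w = (p : R) * (u - t * w) := by linear_combination h5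
  calc (p : R) ^ (s + 1) * w = (p : R) ^ (s + 1) * ((p : R) * (u - t * w)) := by rw [← h6]
    _ = _ := by ring

theorem ex_pow_pt {p : ℕ} (hp : Odd p) (hp0 : (p : R) ≠ 0) {s : ℕ} (hs : 1 ≤ s) {z : R}
    (hz : Ex p s z) (t : ℕ) : Ex p (s + t) (z ^ p ^ t) := by
  induction t with
  | zero => simpa using hz
  | succ t ih =>
    rw [pow_succ, pow_mul, ← add_assoc]
    exact ex_pow_p hp hp0 (by omega) ih

omit [IsDomain R] in
theorem ex_pow_cop {p : ℕ} {s : ℕ} (hs : 1 ≤ s) {z : R}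
    (hz : Ex p s z) {m : ℕ} (hm : Nat.Coprime m p) : Ex p s (z ^ m) := by
  obtain ⟨⟨w, hw⟩, h2⟩ := hz
  obtain ⟨s, rfl⟩ : ∃ r, s = r + 1 := ⟨s - 1, by omega⟩
  have hz1 : z = 1 + (p : R) * ((p : R) ^ s * w) := by
    have : z = 1 + (z - 1) := by ring
    rw [this, hw]; ring
  obtain ⟨t, ht⟩ := geom_mod (p : R) ((p : R) ^ s * w) m
  rw [← hz1] at ht
  have h4 := mul_geom_sum z m
  have h5 : z ^ m - 1 = (p : R) ^ (s + 1) * w * ((m : R) + (p : R) * t) := by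
    rw [← h4, ht, hw]
  refine ⟨⟨w * ((m : R) + (p : R) * t), by rw [h5]; ring⟩, ?_⟩
  intro h6
  apply h2
  have h7 : (p : R) ^ (s + 1 + 1) ∣ (m : R) * (z - 1) := by
    have : (m : R) * (z - 1) = (z ^ m - 1) - (p : R) ^ (s + 1 + 1) * (w * t) := by
      rw [h5, hw]; ring
    rw [this]
    exact dvd_sub h6 (Dvd.intro _ rfl)
  have h8 : IsCoprime ((p : R) ^ (s + 1 + 1)) (m : R) := by
    have h9 : IsCoprime (m : ℤ) (p : ℤ) := Nat.isCoprime_iff_coprime.mpr hm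
    have h10 := h9.map (Int.castRingHom R)
    simp only [eq_intCast, Int.cast_natCast] at h10
    exact h10.symm.pow_left
  exact h8.dvd_of_dvd_mul_left h7

/-- if `p^k | z^n - 1` and `z - 1` is exactly divisible by `p^s` then `p^(k-s) | n`. -/
theorem dvd_exp {p : ℕ} (hpp : p.Prime) (hp : Odd p) (hp0 : (p : R) ≠ 0) {s : ℕ} (hs : 1 ≤ s)
    {z : R} (hz : Ex p s z) {n k : ℕ} (h : (p : R) ^ k ∣ z ^ n - 1) : p ^ (k - s) ∣ n := by
  rcases Nat.eq_zero_or_pos n with rfl | hn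
  · simp
  obtain ⟨t, m, hm, rfl⟩ := Nat.exists_eq_pow_mul_and_not_dvd hn.ne' p hpp.ne_one
  have hm' : Nat.Coprime m p := ((Nat.Prime.coprime_iff_not_dvd hpp).mpr hm).symm
  have h1 := ex_pow_cop (by omega) (ex_pow_pt hp hp0 hs hz t) hm'
  rw [← pow_mul] at h1
  have h2 : k ≤ s + t := by
    by_contra hk
    push Not at hk
    apply h1.2
    exact (pow_dvd_pow _ (by omega)).trans h
  exact (pow_dvd_pow p (by omega)).trans (Dvd.intro _ rfl)

end lte

section nf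

variable {F : Type*} [Field F] [NumberField F]

/-- congruences pass to norms -/
theorem norm_congr (n : ℕ) {y z : 𝓞 F} (h : (n : 𝓞 F) ∣ y - z) :
    (n : ℤ) ∣ Algebra.norm ℤ y - Algebra.norm ℤ z := by
  classical
  obtain ⟨w, hw⟩ := h
  have hy : y = z + (n : 𝓞 F) * w := by rw [← hw]; ring
  let b := Module.Free.chooseBasis ℤ (𝓞 F)
  rw [← ZMod.intCast_zmod_eq_zero_iff_dvd]
  push_cast
  rw [Algebra.norm_eq_matrix_det b, Algebra.norm_eq_matrix_det b]
  have e1 : ∀ A : Matrix (Module.Free.ChooseBasisIndex ℤ (𝓞 F)) (Module.Free.ChooseBasisIndex ℤ (𝓞 F)) ℤ,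
      ((A.det : ℤ) : ZMod n) = (A.map (Int.castRingHom (ZMod n))).det := by
    intro A
    have := RingHom.map_det (Int.castRingHom (ZMod n)) A
    simpa [RingHom.mapMatrix_apply] using this
  rw [e1, e1, sub_eq_zero]
  congr 1
  rw [hy, map_add, map_mul, map_natCast]
  ext i j
  have : ((n : Matrix (Module.Free.ChooseBasisIndex ℤ (𝓞 F)) (Module.Free.ChooseBasisIndex ℤ (𝓞 F)) ℤ)
      * Algebra.leftMulMatrix b w) i j = (n : ℤ) * (Algebra.leftMulMatrix b w) i j := by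
    rw [← nsmul_eq_mul]; simp
  simp [Matrix.map_apply, Matrix.add_apply, this]

theorem card_quot (p k : ℕ) :
    Nat.card (𝓞 F ⧸ Ideal.span {(p : 𝓞 F) ^ k}) = p ^ (Module.finrank ℚ F * k) := by
  have h1 := Ideal.absNorm_span_singleton ((p : 𝓞 F) ^ k)
  rw [Ideal.absNorm_apply, Submodule.cardQuot_apply] at h1
  rw [h1]
  have h2 : ((p : 𝓞 F) ^ k) = algebraMap ℤ (𝓞 F) ((p : ℤ) ^ k) := by simp
  rw [h2, Algebra.norm_algebraMap, RingOfIntegers.rank, Int.natAbs_pow, Int.natAbs_pow]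
  simp [← pow_mul, mul_comm]

theorem p_not_unit {p : ℕ} (hp : p.Prime) : ¬ IsUnit (p : 𝓞 F) := by
  intro h
  have h1 := card_quot (F := F) p 1
  rw [pow_one, Ideal.span_singleton_eq_top.mpr h] at h1
  have h2 : Nat.card (𝓞 F ⧸ (⊤ : Ideal (𝓞 F))) = 1 := by
    have : Subsingleton (𝓞 F ⧸ (⊤ : Ideal (𝓞 F))) := Ideal.Quotient.subsingleton_iff.mpr rfl
    exact Nat.card_of_subsingleton 0
  rw [h2] at h1
  have h3 : 0 < Module.finrank ℚ F * 1 := by
    rw [mul_one]; exact Module.finrank_pos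
  exact absurd h1.symm (Nat.one_lt_pow h3.ne' hp.one_lt).ne'

theorem exists_ex {R : Type*} [CommRing R] [IsDomain R] [WfDvdMonoid R] {p : ℕ}
    (hu : ¬ IsUnit (p : R)) {z : R} (hz : z ≠ 1) (h : (p : R) ∣ z - 1) :
    ∃ s, 1 ≤ s ∧ Ex p s z := by
  have h1 : FiniteMultiplicity (p : R) (z - 1) :=
    FiniteMultiplicity.of_not_isUnit hu (sub_ne_zero.mpr hz)
  refine ⟨multiplicity (p : R) (z - 1), ?_, pow_multiplicity_dvd _ _, ?_⟩
  · by_contra h2
    have h3 : multiplicity (p : R) (z - 1) = 0 := by omega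
    have h4 := h1.not_pow_dvd_of_multiplicity_lt (m := 1) (by omega)
    exact h4 (by simpa using h)
  · exact h1.not_pow_dvd_of_multiplicity_lt (Nat.lt_succ_self _)

omit [NumberField F] in
theorem dvd_of_quot {p k : ℕ} {y z : 𝓞 F}
    (h : Ideal.Quotient.mk (Ideal.span {(p : 𝓞 F) ^ k}) y = Ideal.Quotient.mk _ z) :
    (p : 𝓞 F) ^ k ∣ y - z := by
  rw [Ideal.Quotient.eq, Ideal.mem_span_singleton] at h
  exact h

/-- an exponent killing `(O_F/p)^*` -/
theorem exists_exp (p : ℕ) (hp : p.Prime) : ∃ M : ℕ, 0 < M ∧ ∀ y : 𝓞 F,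
    IsUnit (Ideal.Quotient.mk (Ideal.span {(p : 𝓞 F) ^ 1}) y) → (p : 𝓞 F) ∣ y ^ M - 1 := by
  have hfin : Finite (𝓞 F ⧸ Ideal.span {(p : 𝓞 F) ^ 1}) := by
    apply Nat.finite_of_card_ne_zero
    rw [card_quot]
    exact pow_ne_zero _ hp.ne_zero
  refine ⟨Nat.card (𝓞 F ⧸ Ideal.span {(p : 𝓞 F) ^ 1})ˣ, Nat.card_pos, ?_⟩
  rintro y ⟨u, hu⟩
  have h1 : u ^ Nat.card (𝓞 F ⧸ Ideal.span {(p : 𝓞 F) ^ 1})ˣ = 1 := pow_card_eq_one'
  have h2 := congrArg Units.val h1
  simp only [Units.val_pow_eq_pow_val, hu, Units.val_one] at h2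
  rw [← map_pow, ← map_one (Ideal.Quotient.mk _)] at h2
  simpa using dvd_of_quot h2

/-- an element of norm prime to `p` is a unit modulo `p^k` -/
theorem unit_of_norm {p : ℕ} {x : 𝓞 F}
    (hxp : Nat.Coprime (Ideal.span {x}).absNorm p) (k : ℕ) :
    IsUnit (Ideal.Quotient.mk (Ideal.span {(p : 𝓞 F) ^ k}) x) := by
  have h1 : x ∣ ((Ideal.span {x}).absNorm : 𝓞 F) :=
    Ideal.mem_span_singleton.mp (Ideal.absNorm_mem _)
  have h2 : IsCoprime ((Ideal.span {x}).absNorm : ℤ) (p : ℤ) := Nat.isCoprime_iff_coprime.mpr hxp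
  have h3 := h2.map (Int.castRingHom (𝓞 F))
  simp only [eq_intCast, Int.cast_natCast] at h3
  have h4 : IsCoprime x ((p : 𝓞 F) ^ k) := (IsCoprime.of_isCoprime_of_dvd_left h3 h1).pow_right
  obtain ⟨a, b, hab⟩ := h4
  apply IsUnit.of_mul_eq_one (Ideal.Quotient.mk _ a)
  rw [← map_mul, ← map_one (Ideal.Quotient.mk _), Ideal.Quotient.eq, Ideal.mem_span_singleton]
  refine ⟨-b, ?_⟩
  linear_combination hab

/-- the count of `⟨ε, x⟩` modulo `p^k`; `δ = 1` if `ε` is used, `δ = 0` if not. -/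
theorem card_ge2 (p : ℕ) (hp : p.Prime) (hp2 : p ≠ 2) (x : 𝓞 F)
    (hx1 : 1 < (Ideal.span {x}).absNorm) (hxp : Nat.Coprime (Ideal.span {x}).absNorm p)
    (ε : (𝓞 F)ˣ) (δ : ℕ) (hδ : δ ≤ 1) (hε : δ = 1 → ∀ n : ℕ, 0 < n → ε ^ n ≠ 1) :
    ∃ c : ℕ, ∀ k : ℕ, ∀ H : Subgroup (𝓞 F ⧸ Ideal.span {(p : 𝓞 F) ^ k})ˣ,
      (∀ u : (𝓞 F ⧸ Ideal.span {(p : 𝓞 F) ^ k})ˣ,
        ((u : 𝓞 F ⧸ Ideal.span {(p : 𝓞 F) ^ k}) = Ideal.Quotient.mk _ x ∨
          (u : 𝓞 F ⧸ Ideal.span {(p : 𝓞 F) ^ k}) = Ideal.Quotient.mk _ (ε : 𝓞 F)) → u ∈ H) →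
      p ^ ((k - c) * (1 + δ)) ≤ Nat.card H := by
  have hodd : Odd p := hp.odd_of_ne_two hp2
  obtain ⟨M, hM, hMp⟩ := exists_exp (F := F) p hp
  -- the integer `Q`
  have hxu := unit_of_norm (F := F) hxp
  set Q : ℤ := Algebra.norm ℤ x ^ (2 * M) with hQ
  have hnx : (Ideal.span {x}).absNorm = (Algebra.norm ℤ x).natAbs := Ideal.absNorm_span_singleton x
  have hQ1 : Q ≠ 1 := by
    intro h
    have h1 := congrArg Int.natAbs h
    rw [hQ, Int.natAbs_pow, ← hnx, Int.natAbs_one] at h1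
    exact absurd h1 (Nat.one_lt_pow (by omega) hx1).ne'
  have hQp : ((p : ℕ) : ℤ) ∣ Q - 1 := by
    have h1 : (p : 𝓞 F) ∣ x ^ (2 * M) - 1 := by
      rw [pow_mul', show (x ^ M) ^ 2 - 1 = (x ^ M - 1) * (x ^ M + 1) by ring]
      exact (hMp x (hxu 1)).mul_right _
    have h2 := norm_congr (F := F) p h1
    rwa [map_pow, map_one] at h2
  obtain ⟨s1, hs1', hex1⟩ := exists_ex (R := ℤ) (p := p)
    (by rw [Int.isUnit_iff]; have := hp.one_lt; omega) hQ1 hQp
  -- the unit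
  set z : 𝓞 F := (ε : 𝓞 F) ^ (2 * M) with hz
  have hz1 : δ = 1 → z ≠ 1 := by
    intro hd h
    apply hε hd (2 * M) (by omega)
    ext
    rw [Units.val_pow_eq_pow_val, ← hz, h, Units.val_one]
  have hzp : (p : 𝓞 F) ∣ z - 1 := by
    rw [hz, pow_mul', show ((ε : 𝓞 F) ^ M) ^ 2 - 1 = ((ε : 𝓞 F) ^ M - 1) * ((ε : 𝓞 F) ^ M + 1) by ring]
    exact (hMp _ (ε.isUnit.map _)).mul_right _
  have hp0 : ((p : ℕ) : 𝓞 F) ≠ 0 := by exact_mod_cast hp.ne_zero
  obtain ⟨s2, hs2⟩ : ∃ s2 : ℕ, δ = 1 → ∀ n k : ℕ, (p : 𝓞 F) ^ k ∣ z ^ n - 1 → p ^ (k - s2) ∣ n := by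
    by_cases hd : δ = 1
    · obtain ⟨s2, hs2, hex2⟩ := exists_ex (R := 𝓞 F) (p := p) (p_not_unit hp) (hz1 hd) hzp
      exact ⟨s2, fun _ n k h => dvd_exp hp hodd hp0 hs2 hex2 h⟩
    · exact ⟨0, fun h => absurd h hd⟩
  have hpZ : ((p : ℕ) : ℤ) ≠ 0 := by exact_mod_cast hp.ne_zero
  have hne : Algebra.norm ℤ (ε : 𝓞 F) ^ 2 = 1 := by
    have h1 : IsUnit (Algebra.norm ℤ (ε : 𝓞 F)) := ε.isUnit.map _
    rcases Int.isUnit_iff.mp h1 with h | h <;> rw [h] <;> norm_num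
  refine ⟨max s1 s2, fun k H hH => ?_⟩
  set K := k - max s1 s2 with hK
  obtain ⟨ux, hux⟩ := hxu k
  let ue : (𝓞 F ⧸ Ideal.span {(p : 𝓞 F) ^ k})ˣ := Units.map (Ideal.Quotient.mk _).toMonoidHom ε
  have hue : (ue : 𝓞 F ⧸ Ideal.span {(p : 𝓞 F) ^ k}) = Ideal.Quotient.mk _ (ε : 𝓞 F) := rfl
  have hxH : ux ∈ H := hH ux (Or.inl hux)
  have heH : ue ∈ H := hH ue (Or.inr rfl)
  have hfin : Finite (𝓞 F ⧸ Ideal.span {(p : 𝓞 F) ^ k}) := by
    apply Nat.finite_of_card_ne_zero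
    rw [card_quot]
    exact pow_ne_zero _ hp.ne_zero
  let Φ : Fin (p ^ (K * δ)) × Fin (p ^ K) → H := fun ab =>
    ⟨ue ^ (2 * M * (ab.1 : ℕ)) * ux ^ (2 * M * (ab.2 : ℕ)),
      H.mul_mem (H.pow_mem heH _) (H.pow_mem hxH _)⟩
  have key : ∀ a b a' b' : ℕ, b ≤ b' → b' < p ^ K → a < p ^ (K * δ) → a' < p ^ (K * δ) →
      ue ^ (2 * M * a) * ux ^ (2 * M * b) = ue ^ (2 * M * a') * ux ^ (2 * M * b') →
      a = a' ∧ b = b' := by
    intro a b a' b' hbb hb' ha ha' h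
    have h1 := congrArg Units.val h
    simp only [Units.val_mul, Units.val_pow_eq_pow_val, hux, hue] at h1
    rw [← map_pow, ← map_pow, ← map_pow, ← map_pow, ← map_mul, ← map_mul] at h1
    have h2 := dvd_of_quot h1
    have h3 : ((p ^ k : ℕ) : ℤ) ∣ Algebra.norm ℤ ((ε : 𝓞 F) ^ (2 * M * a) * x ^ (2 * M * b))
        - Algebra.norm ℤ ((ε : 𝓞 F) ^ (2 * M * a') * x ^ (2 * M * b')) := by
      apply norm_congr
      push_cast
      exact h2
    have h4 : ∀ a b : ℕ, Algebra.norm ℤ ((ε : 𝓞 F) ^ (2 * M * a) * x ^ (2 * M * b)) = Q ^ b := by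
      intro a b
      rw [map_mul, map_pow, map_pow, hQ, ← pow_mul, mul_assoc 2 M a, pow_mul _ 2 (M * a), hne,
        one_pow, one_mul]
    rw [h4, h4] at h3
    -- `b = b'`
    have h5 : b = b' := by
      have h6 : (p : ℤ) ^ k ∣ Q ^ (b' - b) - 1 := by
        have h7 : Q ^ b - Q ^ b' = - (Q ^ b * (Q ^ (b' - b) - 1)) := by
          have : Q ^ b' = Q ^ b * Q ^ (b' - b) := by rw [← pow_add]; congr 1; omega
          rw [this]; ring
        rw [h7, dvd_neg] at h3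
        have h8 : IsCoprime ((p : ℤ) ^ k) (Q ^ b) := by
          apply IsCoprime.pow
          rw [hQ]
          apply IsCoprime.pow_right
          apply Int.isCoprime_iff_gcd_eq_one.mpr
          change Nat.gcd (p : ℤ).natAbs (Algebra.norm ℤ x).natAbs = 1
          rw [Int.natAbs_natCast, ← hnx]
          exact hxp.symm
        push_cast at h3
        exact h8.dvd_of_dvd_mul_left h3
      have h10 := dvd_exp hp hodd hpZ hs1' hex1 h6
      have h11 : p ^ K ∣ b' - b := (pow_dvd_pow p (by omega)).trans h10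
      have h12 := Nat.eq_zero_of_dvd_of_lt h11 (by omega)
      omega
    subst h5
    refine ⟨?_, rfl⟩
    have h13 : ue ^ (2 * M * a) = ue ^ (2 * M * a') := mul_right_cancel h
    have main : ∀ a a' : ℕ, a ≤ a' → a' < p ^ (K * δ) → ue ^ (2 * M * a) = ue ^ (2 * M * a') → a = a' := by
      intro a a' haa ha' h13
      rcases Nat.lt_or_ge δ 1 with hd | hd
      · have : δ = 0 := by omega
        subst this
        simp at ha'
        omega
      have hd1 : δ = 1 := le_antisymm hδ hd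
      subst hd1
      have h14 : ue ^ (2 * M * (a' - a)) = 1 := by
        have h15 : ue ^ (2 * M * a') = ue ^ (2 * M * a) * ue ^ (2 * M * (a' - a)) := by
          rw [← pow_add, ← mul_add]; congr 2; omega
        rw [h15] at h13
        exact (mul_eq_left.mp h13.symm)
      have h16 := congrArg Units.val h14
      simp only [Units.val_pow_eq_pow_val, hue, Units.val_one] at h16
      rw [← map_pow, ← map_one (Ideal.Quotient.mk _)] at h16
      have h17 := dvd_of_quot h16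
      rw [pow_mul, ← hz] at h17
      have h18 := hs2 rfl _ _ h17
      have h19 : p ^ K ∣ a' - a := (pow_dvd_pow p (by omega)).trans h18
      rw [mul_one] at ha'
      have h20 := Nat.eq_zero_of_dvd_of_lt h19 (by omega)
      omega
    rcases le_total a a' with h' | h'
    · exact main a a' h' ha' h13
    · exact (main a' a h' ha h13.symm).symm
  have hinj : Function.Injective Φ := by
    rintro ⟨a, b⟩ ⟨a', b'⟩ h
    have h1 : ue ^ (2 * M * (a : ℕ)) * ux ^ (2 * M * (b : ℕ))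
        = ue ^ (2 * M * (a' : ℕ)) * ux ^ (2 * M * (b' : ℕ)) := congrArg Subtype.val h
    rcases le_total (b : ℕ) (b' : ℕ) with h' | h'
    · obtain ⟨h2, h3⟩ := key a b a' b' h' b'.2 a.2 a'.2 h1
      exact Prod.ext (Fin.ext h2) (Fin.ext h3)
    · obtain ⟨h2, h3⟩ := key a' b' a b h' b.2 a'.2 a.2 h1.symm
      exact Prod.ext (Fin.ext h2.symm) (Fin.ext h3.symm)
  have h := Nat.card_le_card_of_injective Φ hinj
  rw [Nat.card_prod, Nat.card_eq_fintype_card, Nat.card_eq_fintype_card, Fintype.card_fin,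
    Fintype.card_fin, ← pow_add] at h
  rw [mul_add, mul_one, add_comm]
  exact h

/-- a unit of infinite order, from the rank -/
theorem exists_unit_inf (F : Type*) [Field F] [NumberField F] (h : 0 < Units.rank F) :
    ∃ ε : (𝓞 F)ˣ, ∀ n : ℕ, 0 < n → ε ^ n ≠ 1 := by
  by_contra hcon
  push Not at hcon
  have h1 : ∀ ε : (𝓞 F)ˣ, ε ∈ Units.torsion F := by
    intro ε
    obtain ⟨n, hn, h1⟩ := hcon ε
    rw [Units.torsion, CommGroup.mem_torsion, isOfFinOrder_iff_pow_eq_one]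
    exact ⟨n, hn, h1⟩
  have h2 : Units.fundSystem F ⟨0, h⟩ ∈ Units.torsion F := h1 _
  have h3 := Units.logEmbedding_fundSystem F ⟨0, h⟩
  rw [(Units.dirichletUnitTheorem.logEmbedding_eq_zero_iff).mpr h2] at h3
  exact (Units.basisUnitLattice F).ne_zero ⟨0, h⟩ (Subtype.ext h3.symm)

/-- **Block (e)**: for `F` totally real of degree `≤ 2`, a subgroup of `(O_F/p^k)^*` containing
the images of all units and of one element `x` of norm `> 1` prime to `p` has index bounded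
independently of `k`. -/
theorem clo (F : Type*) [Field F] [NumberField F] [IsTotallyReal F]
    (h : Module.finrank ℚ F ≤ 2) (p : ℕ) (hp : p.Prime) (hp2 : p ≠ 2) (x : 𝓞 F)
    (hx1 : 1 < (Ideal.span {x}).absNorm) (hxp : Nat.Coprime (Ideal.span {x}).absNorm p) :
    ∃ C : ℕ, 0 < C ∧ ∀ k : ℕ, ∀ H : Subgroup (𝓞 F ⧸ Ideal.span {(p : 𝓞 F) ^ k})ˣ,
      (∀ (u : (𝓞 F ⧸ Ideal.span {(p : 𝓞 F) ^ k})ˣ) (y : 𝓞 F),
        (u : 𝓞 F ⧸ Ideal.span {(p : 𝓞 F) ^ k}) = Ideal.Quotient.mk _ y → (IsUnit y ∨ y = x) →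
          u ∈ H) →
      H.index ≠ 0 ∧ H.index ≤ C := by
  have hn0 : 0 < Module.finrank ℚ F := Module.finrank_pos
  obtain ⟨ε, δ, hδ, hδ1, hε⟩ : ∃ (ε : (𝓞 F)ˣ) (δ : ℕ), 1 + δ = Module.finrank ℚ F ∧ δ ≤ 1 ∧
      (δ = 1 → ∀ n : ℕ, 0 < n → ε ^ n ≠ 1) := by
    by_cases h2 : Module.finrank ℚ F = 2
    · have hr : 0 < Units.rank F := by
        have h3 : Fintype.card (InfinitePlace F) = 2 := by
          rw [InfinitePlace.card_eq_nrRealPlaces_add_nrComplexPlaces,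
            IsTotallyReal.nrComplexPlaces_eq_zero, add_zero, ← IsTotallyReal.finrank, h2]
        rw [Units.rank, h3]
        norm_num
      obtain ⟨ε, hε⟩ := exists_unit_inf F hr
      exact ⟨ε, 1, by omega, le_rfl, fun _ => hε⟩
    · exact ⟨1, 0, by omega, by omega, fun h => absurd h (by omega)⟩
  obtain ⟨c, hc⟩ := card_ge2 p hp hp2 x hx1 hxp ε δ hδ1 hε
  refine ⟨p ^ (Module.finrank ℚ F * c), pow_pos hp.pos _, fun k H hH => ?_⟩
  have hfin : Finite (𝓞 F ⧸ Ideal.span {(p : 𝓞 F) ^ k}) := by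
    apply Nat.finite_of_card_ne_zero
    rw [card_quot]
    exact pow_ne_zero _ hp.ne_zero
  refine ⟨Subgroup.index_ne_zero_of_finite, ?_⟩
  have h1 := hc k H (by
    rintro u (hu | hu)
    · exact hH u x hu (Or.inr rfl)
    · exact hH u _ hu (Or.inl ε.isUnit))
  have h2 := H.card_mul_index
  have h3 : Nat.card (𝓞 F ⧸ Ideal.span {(p : 𝓞 F) ^ k})ˣ ≤ p ^ (Module.finrank ℚ F * k) := by
    rw [← card_quot (F := F) p k]
    exact Nat.card_le_card_of_injective _ Units.val_injective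
  rw [hδ] at h1
  have h4 : p ^ ((k - c) * Module.finrank ℚ F) * H.index
      ≤ p ^ ((k - c) * Module.finrank ℚ F) * p ^ (Module.finrank ℚ F * c) := by
    calc _ ≤ Nat.card H * H.index := Nat.mul_le_mul_right _ h1
      _ = _ := h2
      _ ≤ p ^ (Module.finrank ℚ F * k) := h3
      _ ≤ _ := by
        rw [← pow_add]
        apply Nat.pow_le_pow_right hp.pos
        have : k ≤ (k - c) + c := by omega
        calc Module.finrank ℚ F * k ≤ Module.finrank ℚ F * ((k - c) + c) :=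
              Nat.mul_le_mul_left _ this
          _ = _ := by ring
  exact Nat.le_of_mul_le_mul_left h4 (pow_pos hp.pos _)

end nf

end Vale.Agent.P024.H379
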