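import Vale.Agent.P024.H379.Clo

/-! P024, block M3 (e), multiquadratic version: `F` totally real, Galois over `ℚ` with a Galois
group of exponent dividing two. -/

namespace Vale.Agent.P024.H379

open NumberField Finset

section count

variable {F : Type*} [Field F] [NumberField F]

/-- the units congruent to `1` modulo `p^k` -/
noncomputable def Ck (F : Type*) [Field F] [NumberField F] (p k : ℕ) : Subgroup (𝓞 F)ˣ :=
  (Units.map (Ideal.Quotient.mk (Ideal.span {(p : 𝓞 F) ^ k})).toMonoidHom).ker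

theorem mem_Ck {p k : ℕ} {u : (𝓞 F)ˣ} : u ∈ Ck F p k ↔ (p : 𝓞 F) ^ k ∣ (u : 𝓞 F) - 1 := by
  rw [Ck, MonoidHom.mem_ker, Units.ext_iff]
  change Ideal.Quotient.mk _ (u : 𝓞 F) = 1 ↔ _
  rw [← map_one (Ideal.Quotient.mk _), Ideal.Quotient.eq, Ideal.mem_span_singleton]

theorem card_geI (p : ℕ) (hp : p.Prime) (hp2 : p ≠ 2) (x : 𝓞 F)
    (hx1 : 1 < (Ideal.span {x}).absNorm) (hxp : Nat.Coprime (Ideal.span {x}).absNorm p)
    {I : Type*} [Fintype I] (e : I → (𝓞 F)ˣ) (T : I → (𝓞 F)ˣ →* (𝓞 F)ˣ)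
    (hT : ∀ i k, ∀ u ∈ Ck F p k, T i u ∈ Ck F p k)
    (h0 : ∀ i j, i ≠ j → T i (e j) = 1) (h1 : ∀ i, ∀ n : ℕ, 0 < n → (T i (e i)) ^ n ≠ 1) :
    ∃ c : ℕ, ∀ k : ℕ, ∀ H : Subgroup (𝓞 F ⧸ Ideal.span {(p : 𝓞 F) ^ k})ˣ,
      (∀ u : (𝓞 F ⧸ Ideal.span {(p : 𝓞 F) ^ k})ˣ,
        ((u : 𝓞 F ⧸ Ideal.span {(p : 𝓞 F) ^ k}) = Ideal.Quotient.mk _ x ∨
          ∃ ε : (𝓞 F)ˣ, (u : 𝓞 F ⧸ Ideal.span {(p : 𝓞 F) ^ k}) = Ideal.Quotient.mk _ (ε : 𝓞 F)) →
            u ∈ H) →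
      p ^ ((k - c) * (Fintype.card I + 1)) ≤ Nat.card H := by
  classical
  have hodd : Odd p := hp.odd_of_ne_two hp2
  obtain ⟨M, hM, hMp⟩ := exists_exp (F := F) p hp
  have hxu := unit_of_norm (F := F) hxp
  set Q : ℤ := Algebra.norm ℤ x ^ (2 * M) with hQ
  have hnx : (Ideal.span {x}).absNorm = (Algebra.norm ℤ x).natAbs := Ideal.absNorm_span_singleton x
  have hQ1 : Q ≠ 1 := by
    intro h
    have h1 := congrArg Int.natAbs h
    rw [hQ, Int.natAbs_pow, ← hnx, Int.natAbs_one] at h1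
    exact absurd h1 (Nat.one_lt_pow (by omega) hx1).ne'
  have hsq : ∀ y : 𝓞 F, (p : 𝓞 F) ∣ y ^ M - 1 → (p : 𝓞 F) ∣ y ^ (2 * M) - 1 := by
    intro y hy
    rw [pow_mul', show (y ^ M) ^ 2 - 1 = (y ^ M - 1) * (y ^ M + 1) by ring]
    exact hy.mul_right _
  have hQp : ((p : ℕ) : ℤ) ∣ Q - 1 := by
    have h2 := norm_congr (F := F) p (hsq x (hMp x (hxu 1)))
    rwa [map_pow, map_one] at h2
  obtain ⟨s1, hs1', hex1⟩ := exists_ex (R := ℤ) (p := p)
    (by rw [Int.isUnit_iff]; have := hp.one_lt; omega) hQ1 hQp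
  have hp0 : ((p : ℕ) : 𝓞 F) ≠ 0 := by exact_mod_cast hp.ne_zero
  have hpZ : ((p : ℕ) : ℤ) ≠ 0 := by exact_mod_cast hp.ne_zero
  -- the units
  have hz : ∀ i, ∃ s2 : ℕ, ∀ n k : ℕ,
      (p : 𝓞 F) ^ k ∣ (((T i (e i)) ^ (2 * M) : (𝓞 F)ˣ) : 𝓞 F) ^ n - 1 → p ^ (k - s2) ∣ n := by
    intro i
    have hz1 : (((T i (e i)) ^ (2 * M) : (𝓞 F)ˣ) : 𝓞 F) ≠ 1 := by
      intro h
      exact h1 i (2 * M) (by omega) (Units.ext h)
    have hzp : (p : 𝓞 F) ∣ (((T i (e i)) ^ (2 * M) : (𝓞 F)ˣ) : 𝓞 F) - 1 := by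
      rw [Units.val_pow_eq_pow_val]
      exact hsq _ (hMp _ ((T i (e i)).isUnit.map _))
    obtain ⟨s2, hs2, hex2⟩ := exists_ex (R := 𝓞 F) (p := p) (p_not_unit hp) hz1 hzp
    exact ⟨s2, fun n k h => dvd_exp hp hodd hp0 hs2 hex2 h⟩
  choose s2 hs2 using hz
  have hne : ∀ ε : (𝓞 F)ˣ, Algebra.norm ℤ (ε : 𝓞 F) ^ 2 = 1 := by
    intro ε
    have h1 : IsUnit (Algebra.norm ℤ (ε : 𝓞 F)) := ε.isUnit.map _
    rcases Int.isUnit_iff.mp h1 with h | h <;> rw [h] <;> norm_num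
  refine ⟨max s1 (Finset.univ.sup s2), fun k H hH => ?_⟩
  set K := k - max s1 (Finset.univ.sup s2) with hK
  have hKs : ∀ i, K ≤ k - s2 i := by
    intro i
    have h3 : s2 i ≤ Finset.univ.sup s2 := Finset.le_sup (Finset.mem_univ i)
    omega
  obtain ⟨ux, hux⟩ := hxu k
  let ρ : (𝓞 F)ˣ →* (𝓞 F ⧸ Ideal.span {(p : 𝓞 F) ^ k})ˣ :=
    Units.map (Ideal.Quotient.mk _).toMonoidHom
  have hρ : ∀ ε : (𝓞 F)ˣ, ((ρ ε : (𝓞 F ⧸ Ideal.span {(p : 𝓞 F) ^ k})ˣ) :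
      𝓞 F ⧸ Ideal.span {(p : 𝓞 F) ^ k}) = Ideal.Quotient.mk _ (ε : 𝓞 F) := fun _ => rfl
  have hxH : ux ∈ H := hH ux (Or.inl hux)
  have heH : ∀ ε, ρ ε ∈ H := fun ε => hH _ (Or.inr ⟨ε, rfl⟩)
  have hfin : Finite (𝓞 F ⧸ Ideal.span {(p : 𝓞 F) ^ k}) := by
    apply Nat.finite_of_card_ne_zero
    rw [card_quot]
    exact pow_ne_zero _ hp.ne_zero
  let W : (I → Fin (p ^ K)) → (𝓞 F)ˣ := fun a => ∏ i, e i ^ (2 * M * (a i : ℕ))
  let Φ : (I → Fin (p ^ K)) × Fin (p ^ K) → H := fun ab =>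
    ⟨ρ (W ab.1) * ux ^ (2 * M * (ab.2 : ℕ)), H.mul_mem (heH _) (H.pow_mem hxH _)⟩
  have hNW : ∀ a, Algebra.norm ℤ ((W a : (𝓞 F)ˣ) : 𝓞 F) = 1 := by
    intro a
    have h2 : W a = (∏ i, e i ^ (M * (a i : ℕ))) ^ 2 := by
      rw [← Finset.prod_pow]
      refine Finset.prod_congr rfl (fun i _ => ?_)
      rw [← pow_mul]; congr 1; ring
    rw [h2, Units.val_pow_eq_pow_val, map_pow, hne]
  -- exponent of `x`
  have keyb : ∀ (a a' : I → Fin (p ^ K)) (b b' : ℕ), b ≤ b' → b' < p ^ K →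
      ρ (W a) * ux ^ (2 * M * b) = ρ (W a') * ux ^ (2 * M * b') → b = b' := by
    intro a a' b b' hbb hb' h
    have h1 := congrArg Units.val h
    simp only [Units.val_mul, Units.val_pow_eq_pow_val, hux, hρ] at h1
    rw [← map_pow, ← map_pow, ← map_mul, ← map_mul] at h1
    have h2 := dvd_of_quot h1
    have h3 : ((p ^ k : ℕ) : ℤ) ∣ Algebra.norm ℤ ((W a : 𝓞 F) * x ^ (2 * M * b))
        - Algebra.norm ℤ ((W a' : 𝓞 F) * x ^ (2 * M * b')) := by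
      apply norm_congr
      push_cast
      exact h2
    rw [map_mul, map_mul, hNW, hNW, one_mul, one_mul, map_pow, map_pow,
      pow_mul _ (2 * M) b, pow_mul _ (2 * M) b', ← hQ] at h3
    have h6 : (p : ℤ) ^ k ∣ Q ^ (b' - b) - 1 := by
      have h7 : Q ^ b - Q ^ b' = - (Q ^ b * (Q ^ (b' - b) - 1)) := by
        have : Q ^ b' = Q ^ b * Q ^ (b' - b) := by rw [← pow_add]; congr 1; omega
        rw [this]; ring
      rw [h7, dvd_neg] at h3
      have h8 : IsCoprime ((p : ℤ) ^ k) (Q ^ b) := by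
        apply IsCoprime.pow
        rw [hQ]
        apply IsCoprime.pow_right
        apply Int.isCoprime_iff_gcd_eq_one.mpr
        change Nat.gcd (p : ℤ).natAbs (Algebra.norm ℤ x).natAbs = 1
        rw [Int.natAbs_natCast, ← hnx]
        exact hxp.symm
      push_cast at h3
      exact h8.dvd_of_dvd_mul_left h3
    have h10 := dvd_exp hp hodd hpZ hs1' hex1 h6
    have h11 : p ^ K ∣ b' - b := (pow_dvd_pow p (by omega)).trans h10
    have h12 := Nat.eq_zero_of_dvd_of_lt h11 (by omega)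
    omega
  -- exponents of the units
  have keya : ∀ a a' : I → Fin (p ^ K), ρ (W a) = ρ (W a') → ∀ i, (a i : ℕ) ≤ a' i →
      (a i : ℕ) = a' i := by
    intro a a' h i hle
    have h2 : W a' * (W a)⁻¹ ∈ Ck F p k := by
      rw [Ck, MonoidHom.mem_ker]
      change ρ _ = 1
      rw [map_mul, map_inv, h, mul_inv_cancel]
    have h3 := hT i k _ h2
    have hTW : ∀ a : I → Fin (p ^ K), T i (W a) = (T i (e i) ^ (2 * M)) ^ (a i : ℕ) := by
      intro a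
      rw [map_prod, Finset.prod_eq_single i]
      · rw [map_pow, ← pow_mul]
      · intro j _ hji
        rw [map_pow, h0 i j (Ne.symm hji), one_pow]
      · intro h; exact absurd (Finset.mem_univ i) h
    rw [map_mul, map_inv, hTW, hTW] at h3
    have h4 : (T i (e i) ^ (2 * M)) ^ (a' i : ℕ) * ((T i (e i) ^ (2 * M)) ^ (a i : ℕ))⁻¹
        = (T i (e i) ^ (2 * M)) ^ ((a' i : ℕ) - a i) := by
      rw [mul_inv_eq_iff_eq_mul, ← pow_add]; congr 1; omega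
    rw [h4, mem_Ck, Units.val_pow_eq_pow_val] at h3
    have h5 := hs2 i _ _ h3
    have h6 : p ^ K ∣ (a' i : ℕ) - a i := (pow_dvd_pow p (hKs i)).trans h5
    have h7 := Nat.eq_zero_of_dvd_of_lt h6 (by have := (a' i).2; omega)
    omega
  have keya' : ∀ a a' : I → Fin (p ^ K), ρ (W a) = ρ (W a') → a = a' := by
    intro a a' h
    funext i
    apply Fin.ext
    rcases le_total (a i : ℕ) (a' i) with h' | h'
    · exact keya a a' h i h'
    · exact (keya a' a h.symm i h').symm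
  have hinj : Function.Injective Φ := by
    rintro ⟨a, b⟩ ⟨a', b'⟩ h
    have h1 : ρ (W a) * ux ^ (2 * M * (b : ℕ)) = ρ (W a') * ux ^ (2 * M * (b' : ℕ)) :=
      congrArg Subtype.val h
    have hb : (b : ℕ) = b' := by
      rcases le_total (b : ℕ) (b' : ℕ) with h' | h'
      · exact keyb a a' b b' h' b'.2 h1
      · exact (keyb a' a b' b h' b.2 h1.symm).symm
    have hb2 : b = b' := Fin.ext hb
    subst hb2
    have h2 : ρ (W a) = ρ (W a') := mul_right_cancel h1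
    rw [keya' a a' h2]
  have h := Nat.card_le_card_of_injective Φ hinj
  have h2 : Nat.card ((I → Fin (p ^ K)) × Fin (p ^ K)) = p ^ (K * (Fintype.card I + 1)) := by
    rw [Nat.card_prod, Nat.card_eq_fintype_card, Nat.card_eq_fintype_card, Fintype.card_fin,
      Fintype.card_pi, Finset.prod_const, Fintype.card_fin, Finset.card_univ, ← pow_mul,
      ← pow_add, mul_add, mul_one]
  rw [h2] at h
  exact h

end count

section multi

/-- duality for groups of exponent two, with values in `ℤˣ` -/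
theorem card_chars (A : Type*) [Group A] [Finite A] (h2 : ∀ g : A, g * g = 1) :
    Nat.card (A →* ℤˣ) = Nat.card A := by
  let _i : CommGroup A :=
    { (inferInstance : Group A) with
      mul_comm := fun a b => by
        have h := h2 (a * b)
        have ha := h2 a
        have hb := h2 b
        calc a * b = a * (a * b * (a * b)) * b := by rw [h, mul_one]
          _ = (a * a) * (b * a) * (b * b) := by group
          _ = b * a := by rw [ha, hb, one_mul, mul_one] }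
  have h2' : HasEnoughRootsOfUnity ℤ 2 :=
    { prim := ⟨-1, IsPrimitiveRoot.neg_one 0 (by norm_num)⟩
      cyc := inferInstance }
  have hexp : Monoid.exponent A ∣ 2 := by
    apply Monoid.exponent_dvd_of_forall_pow_eq_one
    intro g
    rw [pow_two]
    exact h2 g
  have h3 : HasEnoughRootsOfUnity ℤ (Monoid.exponent A) := HasEnoughRootsOfUnity.of_dvd ℤ hexp
  exact CommGroup.card_monoidHom_of_hasEnoughRootsOfUnity A ℤ

variable {F : Type*} [Field F] [NumberField F]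

/-- the action of an automorphism on units -/
noncomputable def act (s : F ≃ₐ[ℚ] F) : (𝓞 F)ˣ →* (𝓞 F)ˣ :=
  Units.map (RingOfIntegers.mapRingHom (s : F →+* F)).toMonoidHom

theorem act_val (s : F ≃ₐ[ℚ] F) (u : (𝓞 F)ˣ) :
    (((act s u : (𝓞 F)ˣ) : 𝓞 F) : F) = s ((u : 𝓞 F) : F) := rfl

theorem act_Ck (s : F ≃ₐ[ℚ] F) {p k : ℕ} {u : (𝓞 F)ˣ} (h : u ∈ Ck F p k) : act s u ∈ Ck F p k := by
  rw [mem_Ck] at h ⊢
  have h1 := map_dvd (RingOfIntegers.mapRingHom (s : F →+* F)) h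
  rw [map_sub, map_one, map_pow, map_natCast] at h1
  exact h1

/-- the `ψ`-component operator -/
noncomputable def Tpsi (ψ : (F ≃ₐ[ℚ] F) →* ℤˣ) : (𝓞 F)ˣ →* (𝓞 F)ˣ :=
  ∏ s : F ≃ₐ[ℚ] F, (act s) ^ ((ψ s : ℤˣ) : ℤ)

theorem Tpsi_apply (ψ : (F ≃ₐ[ℚ] F) →* ℤˣ) (u : (𝓞 F)ˣ) :
    Tpsi ψ u = ∏ s : F ≃ₐ[ℚ] F, (act s u) ^ ((ψ s : ℤˣ) : ℤ) := by
  rw [Tpsi, MonoidHom.finsetProd_apply]
  rfl

theorem Tpsi_Ck (ψ : (F ≃ₐ[ℚ] F) →* ℤˣ) {p k : ℕ} {u : (𝓞 F)ˣ} (h : u ∈ Ck F p k) :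
    Tpsi ψ u ∈ Ck F p k := by
  rw [Tpsi_apply]
  exact Subgroup.prod_mem _ (fun s _ => Subgroup.zpow_mem _ (act_Ck s h) _)

end multi

end Vale.Agent.P024.H379
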