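import Vale.Agent.P024.H379.Norm
import Vale.Agent.P024.M4.Spec

/-! P024, block DEG1 (helper379): a prime of `F` with a Frobenius element over the rationals which
fixes `F` has degree one. -/

namespace Vale.Agent.P024.H379

open NumberField IsDedekindDomain

/-- general form -/
theorem absNorm_of_fix {E : Type*} [Field E] {F : Type*} [Field F] [NumberField F] [Algebra F E]
    (O : ValuationSubring E) (v : HeightOneSpectrum (𝓞 F)) (hv : IsCenter O v) (φ : E →+* E)
    (r : ℕ) (hr : r.Prime) (hrO : (r : E) ∈ O.nonunits) (hφ : ∀ x ∈ O, φ x - x ^ r ∈ O.nonunits)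
    (hfix : ∀ x : F, φ (algebraMap F E x) = algebraMap F E x) :
    Ideal.absNorm v.asIdeal = r := by
  refine Norm.absNorm_eq v hr ?_ ?_
  · rw [hv]
    simpa using hrO
  · intro x
    rw [hv]
    have h1 : algebraMap F E (x : F) ∈ O :=
      coe_mem_valuationSubring O (algebraMap (𝓞 F) (𝓞 E) x)
    have h2 := hφ _ h1
    rw [hfix] at h2
    simpa using h2

/-- **DEG1.** -/
theorem deg1 {E₁ : Type*} [Field E₁] [CharZero E₁] (F : IntermediateField ℚ E₁) [NumberField F]
    (O : ValuationSubring E₁) (v : HeightOneSpectrum (𝓞 F)) (hv : IsCenter O v)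
    (φ : E₁ ≃ₐ[ℚ] E₁) (hφF : φ ∈ F.fixingSubgroup) (r : ℕ) (hr : r.Prime)
    (hrO : (r : E₁) ∈ O.nonunits) (hφ : ActsPow O φ r) : Ideal.absNorm v.asIdeal = r := by
  refine absNorm_of_fix O v hv (φ : E₁ →+* E₁) r hr hrO (fun x hx => hφ x hx) ?_
  intro x
  rw [IntermediateField.mem_fixingSubgroup_iff] at hφF
  exact hφF x x.2

/-- **DEG1**, as primality of the norm. -/
theorem deg1_prime {E₁ : Type*} [Field E₁] [CharZero E₁] (F : IntermediateField ℚ E₁)
    [NumberField F] (O : ValuationSubring E₁) (v : HeightOneSpectrum (𝓞 F)) (hv : IsCenter O v)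
    (φ : E₁ ≃ₐ[ℚ] E₁) (hφF : φ ∈ F.fixingSubgroup) (r : ℕ) (hr : r.Prime)
    (hrO : (r : E₁) ∈ O.nonunits) (hφ : ActsPow O φ r) : (Ideal.absNorm v.asIdeal).Prime := by
  rw [deg1 F O v hv φ hφF r hr hrO hφ]
  exact hr

end Vale.Agent.P024.H379
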